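import Mathlib

/-!
Pins for the rectilinear Zarankiewicz lower bound: stars as cyclic orders, their potential, and the
bound for one pair of stars.

`N = 2 * p + 1` vertices of one class, sorted by abscissa. A star with `g` of them to its left is a
permutation `π` placing the right block (`g ≤ q`, slope ascending) at the positions below `N - g`,
followed by the left block (slope descending).
-/

namespace Vale.Agent.P040.Rect

open Finset

/-- `0` or `1`. -/
def b2i (c : Prop) [Decidable c] : ℤ := if c then 1 else 0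

/-- The order is made of the right block followed by the left block. -/
def Star (p g : ℕ) (π : Equiv.Perm (Fin (2 * p + 1))) : Prop :=
  ∀ q : Fin (2 * p + 1), (π q).val < 2 * p + 1 - g ↔ g ≤ q.val

/-- The order bit of `r` and `q`. -/
def ob {N : ℕ} (π : Equiv.Perm (Fin N)) (r q : Fin N) : Bool := decide (π r < π q)

/-- `k` is one of the `p` cyclic predecessors of `q`. -/
def Pred (p : ℕ) (π : Equiv.Perm (Fin (2 * p + 1))) (k q : Fin (2 * p + 1)) : Prop :=
  k ≠ q ∧ ((π q).val + (2 * p + 1) - (π k).val) % (2 * p + 1) ≤ p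

instance (p : ℕ) (π : Equiv.Perm (Fin (2 * p + 1))) (k q : Fin (2 * p + 1)) :
    Decidable (Pred p π k q) := inferInstanceAs (Decidable (_ ∧ _))

/-- The potential: lower-indexed vertices among the `p` cyclic predecessors. -/
def pot (p : ℕ) (π : Equiv.Perm (Fin (2 * p + 1))) (q : Fin (2 * p + 1)) : ℤ :=
  ∑ k, b2i (k < q ∧ Pred p π k q)

/-- Width of the code of the potential at `q`. -/
def wid (p : ℕ) (q : Fin (2 * p + 1)) : ℤ := (min q.val (2 * p - q.val) : ℕ)

/-- Number of pairs `r < q` of a block that two orders put differently. -/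
def inv {N : ℕ} (g : ℕ) (π ρ : Equiv.Perm (Fin N)) : ℤ :=
  ∑ r, ∑ q, b2i (r < q ∧ (g ≤ r.val ↔ g ≤ q.val) ∧ ob π r q ≠ ob ρ r q)

/-- Contribution of one pair `r < q` to the crossings of two stars `g = a ≤ b`, the first to the
left, for chosen sides `σ` of the vertices outside `[a, b)`. -/
def pairCost (a b r q : ℕ) (σr σq i j : Bool) : ℤ :=
  if r < a then
    if q < a then b2i (σq ≠ i) + b2i (σr ≠ !j)
    else if q < b then b2i (σr ≠ !j) else b2i (σq = σr)
  else if r < b then
    if q < b then b2i (i ≠ j) else b2i (σq ≠ i)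
  else b2i (σq ≠ i) + b2i (σr ≠ !j)

/-- Crossings forced between two stars by parity, for chosen sides. -/
def cost (p a b : ℕ) (σ : Fin (2 * p + 1) → Bool) (π ρ : Equiv.Perm (Fin (2 * p + 1))) : ℤ :=
  ∑ r, ∑ q, if r < q then pairCost a b r.val q.val (σ r) (σ q) (ob π r q) (ob ρ r q) else 0

/-- Hamming distance of the codes: complemented on the middle zone. -/
def codeDist (p a b : ℕ) (π ρ : Equiv.Perm (Fin (2 * p + 1))) : ℤ :=
  ∑ q, if a ≤ q.val ∧ q.val < b then wid p q - |pot p π q - pot p ρ q| else |pot p π q - pot p ρ q|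

/-- Range of the potential. -/
def RangeStmt : Prop :=
  ∀ (p : ℕ) (π : Equiv.Perm (Fin (2 * p + 1))) (q : Fin (2 * p + 1)),
    max 0 ((q.val : ℤ) - p) ≤ pot p π q ∧ pot p π q ≤ max 0 ((q.val : ℤ) - p) + wid p q

/-- The potential is Lipschitz for the number of inversions inside the blocks. -/
def LipStmt : Prop :=
  ∀ (p g : ℕ) (π ρ : Equiv.Perm (Fin (2 * p + 1))), g ≤ 2 * p + 1 → Star p g π → Star p g ρ →
    ∑ q, |pot p π q - pot p ρ q| ≤ inv g π ρ

/-- Sorted stars: inside each block the sides decide the order. -/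
def Sorted (p a b : ℕ) (σ : Fin (2 * p + 1) → Bool) (π ρ : Equiv.Perm (Fin (2 * p + 1))) : Prop :=
  Star p a π ∧ Star p b ρ ∧
  (∀ r q : Fin (2 * p + 1), r < q → (q.val < a ∨ (a ≤ r.val ∧ b ≤ q.val)) → ob π r q = σ q) ∧
  (∀ r q : Fin (2 * p + 1), r < q → (b ≤ r.val ∨ (r.val < a ∧ q.val < b)) → ob ρ r q = !σ r) ∧
  (∀ r q : Fin (2 * p + 1), r < q → a ≤ r.val → q.val < b → ob π r q = ob ρ r q)

/-- Existence of the sorted stars, at a cost that pays for the change of potential. -/
def SortStmt : Prop :=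
  ∀ (p a b : ℕ) (σ : Fin (2 * p + 1) → Bool) (π ρ : Equiv.Perm (Fin (2 * p + 1))),
    a ≤ b → b ≤ 2 * p + 1 → Star p a π → Star p b ρ →
    ∃ π₀ ρ₀, Sorted p a b σ π₀ ρ₀ ∧
      inv a π π₀ + inv b ρ ρ₀ +
        ∑ r, ∑ q, b2i (r < q ∧ r.val < a ∧ b ≤ q.val ∧ σ q = σ r) ≤ cost p a b σ π ρ

/-- The bound for sorted stars. -/
def SortedStmt : Prop :=
  ∀ (p a b : ℕ) (σ : Fin (2 * p + 1) → Bool) (π ρ : Equiv.Perm (Fin (2 * p + 1))),
    a ≤ b → b ≤ 2 * p + 1 → Sorted p a b σ π ρ →
    (p : ℤ) * p ≤ (∑ r, ∑ q, b2i (r < q ∧ r.val < a ∧ b ≤ q.val ∧ σ q = σ r)) + codeDist p a b π ρ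

/-- The bound for any two stars. -/
def PairStmt : Prop :=
  ∀ (p a b : ℕ) (σ : Fin (2 * p + 1) → Bool) (π ρ : Equiv.Perm (Fin (2 * p + 1))),
    a ≤ b → b ≤ 2 * p + 1 → Star p a π → Star p b ρ →
    (p : ℤ) * p ≤ cost p a b σ π ρ + codeDist p a b π ρ

/-- Triangle inequality: from sorted stars to all stars. -/
theorem pair_of_sorted (hl : LipStmt) (hs : SortStmt) (hb : SortedStmt) : PairStmt := by
  intro p a b σ π ρ hab hb' hπ hρ
  obtain ⟨π₀, ρ₀, h₀, hc⟩ := hs p a b σ π ρ hab hb' hπ hρ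
  have h1 := hb p a b σ π₀ ρ₀ hab hb' h₀
  have h2 := hl p a π π₀ (hab.trans hb') hπ h₀.1
  have h3 := hl p b ρ ρ₀ hb' hρ h₀.2.1
  have h4 : codeDist p a b π₀ ρ₀ ≤ codeDist p a b π ρ +
      (∑ q, |pot p π q - pot p π₀ q|) + ∑ q, |pot p ρ q - pot p ρ₀ q| := by
    simp only [codeDist, ← Finset.sum_add_distrib]
    refine Finset.sum_le_sum fun q _ => ?_
    set x := pot p π q
    set y := pot p ρ q
    set x' := pot p π₀ q
    set y' := pot p ρ₀ q
    have k1 := abs_sub_le x x' y
    have k2 := abs_sub_le x' y' y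
    have k3 := abs_sub_le x' x y'
    have k4 := abs_sub_le x y y'
    have k5 : |y' - y| = |y - y'| := abs_sub_comm _ _
    have k6 : |x' - x| = |x - x'| := abs_sub_comm _ _
    split_ifs <;> linarith
  linarith

end Vale.Agent.P040.Rect
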