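import Vale.Agent.P040.Model
import Vale.Agent.P040.Rect.Defs

/-!
The code of the potential as a point of a cube: thermometer codes, complemented on the left block.
-/

namespace Vale.Agent.P040.Rect

open Finset Vale.Agent.P040

/-- The order of a star, extended by the identity to maps that are not injective. -/
noncomputable def toPerm {N : ℕ} (pos : Fin N → Fin N) : Equiv.Perm (Fin N) := by
  classical
  exact if h : Function.Injective pos then
    Equiv.ofBijective pos ⟨h, Finite.injective_iff_surjective.1 h⟩ else 1

theorem toPerm_apply {N : ℕ} {pos : Fin N → Fin N} (h : Function.Injective pos) (q : Fin N) :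
    toPerm pos q = pos q := by
  unfold toPerm
  rw [dif_pos h]
  rfl

theorem ob_toPerm {N : ℕ} {pos : Fin N → Fin N} (h : Function.Injective pos) :
    ob (toPerm pos) = ordBit pos := by
  funext r q
  simp [ob, ordBit, toPerm_apply h]

theorem star_toPerm {p g : ℕ} {pos : Fin (2 * p + 1) → Fin (2 * p + 1)} (h : IsStar g pos) :
    Star p g (toPerm pos) := by
  obtain ⟨hg, hinj, hord⟩ := h
  set R := (univ : Finset (Fin (2 * p + 1))).filter fun k => g ≤ k.val with hR
  have hRc : R.card = 2 * p + 1 - g := by
    rw [hR, ← Finset.card_map Fin.valEmbedding,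
      show (univ.filter fun k : Fin (2 * p + 1) => g ≤ k.val).map Fin.valEmbedding =
        Finset.Ico g (2 * p + 1) from ?_, Nat.card_Ico]
    ext x
    simp only [Finset.mem_map, mem_filter, mem_univ, true_and, Fin.valEmbedding_apply, mem_Ico]
    exact ⟨fun ⟨a, ha, e⟩ => e ▸ ⟨ha, a.isLt⟩, fun hx => ⟨⟨x, hx.2⟩, hx.1, rfl⟩⟩
  have hsur := Finite.injective_iff_surjective.1 hinj
  intro q
  rw [toPerm_apply hinj]
  constructor
  · intro hlt
    by_contra hq
    push Not at hq
    have : R.card ≤ (Finset.Iio (pos q)).card :=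
      Finset.card_le_card_of_injOn pos
        (fun r hr => by simp [hR] at hr ⊢; exact hord q r hq hr) hinj.injOn
    rw [Fin.card_Iio] at this
    omega
  · intro hq
    have : (Finset.Iic (pos q)).card ≤ (R.image pos).card := by
      refine Finset.card_le_card fun x hx => ?_
      obtain ⟨k, rfl⟩ := hsur x
      refine Finset.mem_image.2 ⟨k, ?_, rfl⟩
      rw [hR, mem_filter]
      refine ⟨mem_univ _, ?_⟩
      by_contra hk
      push Not at hk
      exact absurd (Finset.mem_Iic.1 hx) (not_le.2 (hord k q hk hq))
    rw [Fin.card_Iic, Finset.card_image_of_injective _ hinj] at this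
    omega

theorem sum_min_sq (p : ℕ) : ∑ q ∈ range (2 * p + 1), min q (2 * p - q) = p * p := by
  induction p with
  | zero => simp
  | succ p ih =>
    rw [show 2 * (p + 1) + 1 = (2 * p + 1) + 1 + 1 from by ring, Finset.sum_range_succ',
      Finset.sum_range_succ]
    have : ∑ q ∈ range (2 * p + 1), min (q + 1) (2 * (p + 1) - (q + 1)) =
        ∑ q ∈ range (2 * p + 1), (min q (2 * p - q) + 1) :=
      Finset.sum_congr rfl fun q hq => by
        have := Finset.mem_range.1 hq
        omega
    rw [this, Finset.sum_add_distrib, ih, show (p + 1) * (p + 1) = p * p + (2 * p + 1) from by ring]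
    simp only [Finset.sum_const, Finset.card_range, smul_eq_mul, mul_one]
    omega

/-- Width of the code, as a natural number. -/
def nwid (p : ℕ) (q : Fin (2 * p + 1)) : ℕ := min q.val (2 * p - q.val)

theorem abs_eq_count (w : ℕ) (L M lo : ℤ) (hL : lo ≤ L ∧ L ≤ lo + w) (hM : lo ≤ M ∧ M ≤ lo + w) :
    (((univ : Finset (Fin w)).filter fun t =>
      decide (lo + (t.val : ℤ) < L) ≠ decide (lo + (t.val : ℤ) < M)).card : ℤ) = |L - M| := by
  have h : ((univ : Finset (Fin w)).filter fun t =>
      decide (lo + (t.val : ℤ) < L) ≠ decide (lo + (t.val : ℤ) < M)).map Fin.valEmbedding =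
      Finset.Ico (min (L - lo).toNat (M - lo).toNat) (max (L - lo).toNat (M - lo).toNat) := by
    ext x
    simp only [Finset.mem_map, mem_filter, mem_univ, true_and, Fin.valEmbedding_apply, mem_Ico,
      ne_eq, decide_eq_decide]
    constructor
    · rintro ⟨a, ha, rfl⟩
      omega
    · intro hx
      exact ⟨⟨x, by omega⟩, by simp only; omega, rfl⟩
  rw [← Finset.card_map Fin.valEmbedding, h, Nat.card_Ico]
  rcases le_total L M with hLM | hLM
  · rw [abs_of_nonpos (by omega)]
    omega
  · rw [abs_of_nonneg (by omega)]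
    omega

theorem card_filter_sigma {n : ℕ} (w : Fin n → ℕ) (E : (Σ q : Fin n, Fin (w q)) → Prop)
    [DecidablePred E] :
    ((univ : Finset (Σ q : Fin n, Fin (w q))).filter E).card =
      ∑ q, ((univ : Finset (Fin (w q))).filter fun t => E ⟨q, t⟩).card := by
  rw [← Finset.card_sigma]
  congr 1
  ext ⟨q, t⟩
  simp

/-- One block of the code: equal sides give the difference, different sides its complement. -/
theorem fibre_count (w : ℕ) (L M lo : ℤ) (hL : lo ≤ L ∧ L ≤ lo + w) (hM : lo ≤ M ∧ M ≤ lo + w)
    (s t : Bool) :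
    (((univ : Finset (Fin w)).filter fun i =>
      xor s (decide (lo + (i.val : ℤ) < L)) ≠ xor t (decide (lo + (i.val : ℤ) < M))).card : ℤ) =
      if s = t then |L - M| else (w : ℤ) - |L - M| := by
  have key := abs_eq_count w L M lo hL hM
  have tot := Finset.card_filter_add_card_filter_not (s := (univ : Finset (Fin w)))
    (fun i => decide (lo + (i.val : ℤ) < L) ≠ decide (lo + (i.val : ℤ) < M))
  rw [Finset.card_univ, Fintype.card_fin] at tot
  by_cases hst : s = t
  · subst hst
    rw [if_pos rfl, ← key]
    congr 2
    refine Finset.filter_congr fun i _ => ?_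
    cases s <;> simp
  · rw [if_neg hst]
    have : ((univ : Finset (Fin w)).filter fun i =>
        xor s (decide (lo + (i.val : ℤ) < L)) ≠ xor t (decide (lo + (i.val : ℤ) < M))) =
        univ.filter fun i =>
          ¬(decide (lo + (i.val : ℤ) < L) ≠ decide (lo + (i.val : ℤ) < M)) := by
      refine Finset.filter_congr fun i _ => ?_
      revert hst
      generalize decide (lo + (i.val : ℤ) < L) = u
      generalize decide (lo + (i.val : ℤ) < M) = v
      revert s t u v
      decide
    rw [this]
    omega

theorem hasPotential_of (hp : PairStmt) (hr : RangeStmt) (p : ℕ) :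
    HasPotential (2 * p + 1) (p * p) := by
  refine ⟨Σ q : Fin (2 * p + 1), Fin (nwid p q), inferInstance, inferInstance,
    fun g pos e => xor (decide (e.1.val < g))
      (decide (max 0 ((e.1.val : ℤ) - p) + (e.2.val : ℤ) < pot p (toPerm pos) e.1)), ?_, ?_⟩
  · rw [Fintype.card_sigma]
    simp only [Fintype.card_fin]
    exact (Fin.sum_univ_eq_sum_range (fun q => min q (2 * p - q)) (2 * p + 1)).trans (sum_min_sq p)
  intro g h pos pos' hgh hs hs' z
  have hb := hp p g h z (toPerm pos) (toPerm pos') hgh hs'.1 (star_toPerm hs) (star_toPerm hs')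
  have hc : cost p g h z (toPerm pos) (toPerm pos') =
      (starCount g h (ordBit pos) (ordBit pos') z : ℤ) := by
    simp only [cost, starCount, Nat.cast_sum, ob_toPerm hs.2.1, ob_toPerm hs'.2.1]
    refine Finset.sum_congr rfl fun r _ => Finset.sum_congr rfl fun q _ => ?_
    by_cases hrq : r < q
    · have hrq' : r.val < q.val := hrq
      simp only [hrq, if_true, pairCost, pairTerm, b2i]
      split_ifs <;> first | rfl | omega
    · simp [hrq]
  have hd : codeDist p g h (toPerm pos) (toPerm pos') =
      (((univ : Finset (Σ q : Fin (2 * p + 1), Fin (nwid p q))).filter fun e =>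
        xor (decide (e.1.val < g))
          (decide (max 0 ((e.1.val : ℤ) - p) + (e.2.val : ℤ) < pot p (toPerm pos) e.1)) ≠
        xor (decide (e.1.val < h))
          (decide (max 0 ((e.1.val : ℤ) - p) + (e.2.val : ℤ) < pot p (toPerm pos') e.1))).card :
        ℤ) := by
    rw [card_filter_sigma, Nat.cast_sum, codeDist]
    refine Finset.sum_congr rfl fun q _ => ?_
    have hw : (nwid p q : ℤ) = wid p q := rfl
    have hf := fibre_count (nwid p q) _ _ _ (hw ▸ hr p (toPerm pos) q)
      (hw ▸ hr p (toPerm pos') q) (decide (q.val < g)) (decide (q.val < h))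
    rw [hw] at hf
    refine Eq.trans ?_ (hf.symm.trans ?_)
    · by_cases hmid : g ≤ q.val ∧ q.val < h
      · rw [if_pos hmid, if_neg (by simp [hmid.1.not_gt, hmid.2])]
      · rw [if_neg hmid, if_pos (by rw [decide_eq_decide]; omega)]
    · congr!
  rw [hc, hd] at hb
  exact_mod_cast hb

end Vale.Agent.P040.Rect
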