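import Vale.Agent.P040.Rect.Curves
import Vale.Agent.P040.Rect.Potential

/-!
Deleting one vertex: the bound for ordered stars and every number of vertices.
-/

namespace Vale.Agent.P040.Rect

open Finset Vale.Agent.P040

/-- The order induced on a subfamily. -/
noncomputable def subPos {N n : ℕ} (e : Fin N → Fin n) (pos : Fin n → Fin n) : Fin N → Fin N :=
  (Tuple.sort fun q => ((pos (e q)).val : ℝ)).symm

theorem subPos_lt {N n : ℕ} {e : Fin N → Fin n} (he : Function.Injective e) {pos : Fin n → Fin n}
    (hp : Function.Injective pos) (r q : Fin N) :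
    subPos e pos r < subPos e pos q ↔ pos (e r) < pos (e q) := by
  have hk : Function.Injective fun q => ((pos (e q)).val : ℝ) := by
    intro x y h
    simp only [Nat.cast_inj] at h
    exact he (hp (Fin.ext h))
  refine (symm_sort_lt _ hk r q).trans ?_
  show ((pos (e r)).val : ℝ) < ((pos (e q)).val : ℝ) ↔ _
  rw [Nat.cast_lt]
  rfl

/-- An ordered star restricts to a subfamily. -/
theorem OrderedStar.restrict {N n : ℕ} {a : ℝ × ℝ} {pB : Fin n → ℝ × ℝ} {f : Fin n → ℝ → ℝ}
    {pos : Fin n → Fin n} (h : OrderedStar a pB f pos) (hB : StrictMono fun q => (pB q).1)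
    (e : Fin N → Fin n) (he : StrictMono e) :
    OrderedStar a (pB ∘ e) (f ∘ e) (subPos e pos) where
  cont q := h.cont (e q)
  start q := h.start (e q)
  fin q := h.fin (e q)
  avoid q v hv := h.avoid (e q) (e v) hv
  star := by
    obtain ⟨-, hp, hord⟩ := h.star
    have hB' : StrictMono fun q => ((pB ∘ e) q).1 := fun r q hrq => hB (he hrq)
    refine ⟨?_, (Tuple.sort _).symm.injective, fun l r hl hr => ?_⟩
    · exact (Finset.card_le_univ _).trans_eq (Fintype.card_fin N)
    · refine (subPos_lt he.injective hp r l).2 (hord (e l) (e r) ?_ ?_)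
      · exact (lt_lcount hB (e l)).2 ((lt_lcount hB' l).1 hl)
      · by_contra hlt
        push Not at hlt
        exact absurd ((lt_lcount hB' r).2 ((lt_lcount hB (e r)).1 hlt)) (not_lt.2 hr)
  right r q hrq hr := by
    refine Eq.trans ?_ (h.right (e r) (e q) (he hrq) hr)
    rw [ordBit, ordBit, decide_eq_decide]
    exact subPos_lt he.injective h.star.2.1 r q
  left r q hrq hq := by
    refine Eq.trans ?_ (h.left (e r) (e q) (he hrq) hq)
    rw [ordBit, ordBit, decide_eq_decide]
    exact subPos_lt he.injective h.star.2.1 r q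

/-- Deleting each vertex in turn counts every meeting pair `n - 2` times. -/
theorem curveMeets_delete {n : ℕ} (a c : ℝ × ℝ) (pB : Fin (n + 1) → ℝ × ℝ)
    (f k : Fin (n + 1) → ℝ → ℝ) :
    ∑ q : Fin (n + 1), curveMeets a c (pB ∘ q.succAbove) (f ∘ q.succAbove) (k ∘ q.succAbove) ≤
      (n - 1) * curveMeets a c pB f k := by
  classical
  set S : Finset (Fin (n + 1) × Fin (n + 1)) := univ.filter fun e =>
    e.1 ≠ e.2 ∧ ∃ x, InOpen a.1 (pB e.1).1 x ∧ InOpen c.1 (pB e.2).1 x ∧ f e.1 x = k e.2 x with hS
  have hfull : curveMeets a c pB f k = S.card := by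
    rw [← Set.ncard_coe_finset]
    unfold curveMeets
    congr 1
    ext e
    simp [hS]
  have hsub : ∀ q : Fin (n + 1),
      curveMeets a c (pB ∘ q.succAbove) (f ∘ q.succAbove) (k ∘ q.succAbove) ≤
        (S.filter fun e => e.1 ≠ q ∧ e.2 ≠ q).card := by
    intro q
    rw [← Set.ncard_coe_finset]
    refine Set.ncard_le_ncard_of_injOn (fun e => (q.succAbove e.1, q.succAbove e.2)) ?_ ?_
      (Finset.finite_toSet _)
    · rintro e ⟨hne, hx⟩
      simp only [Finset.coe_filter, Set.mem_ofPred_eq, hS, mem_filter, mem_univ, true_and]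
      exact ⟨⟨fun h => hne (Fin.succAbove_right_injective h), hx⟩, Fin.succAbove_ne q e.1,
        Fin.succAbove_ne q e.2⟩
    · intro x _ y _ h
      simp only [Prod.mk.injEq] at h
      exact Prod.ext (Fin.succAbove_right_injective h.1) (Fin.succAbove_right_injective h.2)
  refine (Finset.sum_le_sum fun q _ => hsub q).trans ?_
  rw [hfull]
  simp only [Finset.card_filter]
  rw [Finset.sum_comm]
  refine (Finset.sum_le_sum fun e he => le_of_eq ?_).trans_eq (b := ∑ _e ∈ S, (n - 1)) ?_
  · rw [← Finset.card_filter,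
      show (univ : Finset (Fin (n + 1))).filter (fun q => e.1 ≠ q ∧ e.2 ≠ q) = {e.1, e.2}ᶜ from by
        ext q; simp [eq_comm], Finset.card_compl, Fintype.card_fin,
      Finset.card_pair (by simp [hS] at he; exact he.1)]
    omega
  · rw [Finset.sum_const, smul_eq_mul, Nat.mul_comm]

/-- The Zarankiewicz bound for sorted ordered stars. -/
theorem count_bound (hp : PairStmt) (hr : RangeStmt) {m n : ℕ} (pA : Fin m → ℝ × ℝ)
    (pB : Fin n → ℝ × ℝ) (hA : StrictMono fun i => (pA i).1) (hB : StrictMono fun q => (pB q).1)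
    (hne : ∀ i q, (pA i).1 ≠ (pB q).1) (f : Fin m → Fin n → ℝ → ℝ) (pos : Fin m → Fin n → Fin n)
    (hs : ∀ i, OrderedStar (pA i) pB (f i) (pos i))
    (hav : ∀ i j q, InOpen (pA i).1 (pB q).1 (pA j).1 → f i q (pA j).1 ≠ (pA j).2) :
    m / 2 * ((m - 1) / 2) * (n / 2 * ((n - 1) / 2)) ≤ ∑ i : Fin m, ∑ j : Fin m,
      if i < j then curveMeets (pA i) (pA j) pB (f i) (f j) else 0 := by
  rcases Nat.even_or_odd' n with ⟨k, rfl | rfl⟩
  · rcases k with _ | k
    · simp
    rcases k with _ | k
    · simp
    have h1 : ∀ q : Fin (2 * (k + 1) + 1 + 1),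
        m / 2 * ((m - 1) / 2) * ((k + 1) * (k + 1)) ≤ ∑ i : Fin m, ∑ j : Fin m, if i < j then
          curveMeets (pA i) (pA j) (pB ∘ q.succAbove) (f i ∘ q.succAbove) (f j ∘ q.succAbove)
            else 0 := fun q =>
      sorted_bound (hasPotential_of hp hr (k + 1)) pA hA
        (fun r s hrs => hB (Fin.strictMono_succAbove q hrs)) (fun i r => hne i _) _
        (fun i => subPos q.succAbove (pos i))
        (fun i => (hs i).restrict hB _ (Fin.strictMono_succAbove q)) (fun i j r => hav i j _)
    have h2 := Finset.sum_le_sum (s := univ) fun q _ => h1 q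
    rw [Finset.sum_comm] at h2
    simp only [Finset.sum_const, Finset.card_univ, Fintype.card_fin, smul_eq_mul] at h2
    have h3 : ∀ i : Fin m, (∑ q : Fin (2 * (k + 1) + 1 + 1), ∑ j : Fin m, if i < j then
          curveMeets (pA i) (pA j) (pB ∘ q.succAbove) (f i ∘ q.succAbove) (f j ∘ q.succAbove)
            else 0) ≤ ∑ j : Fin m, if i < j then
          (2 * (k + 1)) * curveMeets (pA i) (pA j) pB (f i) (f j) else 0 := by
      intro i
      rw [Finset.sum_comm]
      refine Finset.sum_le_sum fun j _ => ?_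
      by_cases h : i < j
      · simp only [h, if_true]
        exact (curveMeets_delete _ _ pB (f i) (f j)).trans_eq (by rfl)
      · simp [h]
    have h4 := h2.trans (Finset.sum_le_sum fun i _ => h3 i)
    simp only [← mul_ite_zero, ← Finset.mul_sum] at h4
    rw [show 2 * (k + 1 + 1) / 2 = k + 2 from by omega,
      show (2 * (k + 1 + 1) - 1) / 2 = k + 1 from by omega]
    refine Nat.le_of_mul_le_mul_left (h := ?_) (hc := show 0 < 2 * (k + 1) by omega)
    refine le_trans (le_of_eq ?_) h4
    ring
  · rw [show (2 * k + 1) / 2 = k from by omega, show (2 * k + 1 - 1) / 2 = k from by omega]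
    exact sorted_bound (hasPotential_of hp hr k) pA hA hB hne f pos hs hav

end Vale.Agent.P040.Rect
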