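import Vale.Agent.P040.Plumbing

/-!
Stars of monotone curves whose crossing signs form a height order: the parity count of two stars
is at most their number of meeting pairs, and a potential bounds the total.
-/

namespace Vale.Agent.P040.Rect

open Finset Vale.Agent.P040

/-- Strictly between two reals, in either order. -/
def InOpen (a b x : ℝ) : Prop := (a < x ∧ x < b) ∨ (b < x ∧ x < a)

/-- Number of vertices to the left. -/
noncomputable def lcount {n : ℕ} (a : ℝ × ℝ) (pB : Fin n → ℝ × ℝ) : ℕ :=
  ((univ : Finset (Fin n)).filter fun q => (pB q).1 < a.1).card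

/-- Choices `(u, v)` with `u ≠ v` of curves of two stars that meet in their interiors. -/
noncomputable def curveMeets {n : ℕ} (a c : ℝ × ℝ) (pB : Fin n → ℝ × ℝ) (f k : Fin n → ℝ → ℝ) :
    ℕ :=
  Set.ncard {e : Fin n × Fin n | e.1 ≠ e.2 ∧
    ∃ x, InOpen a.1 (pB e.1).1 x ∧ InOpen c.1 (pB e.2).1 x ∧ f e.1 x = k e.2 x}

/-- A star at `a` by graphs of functions whose signs at the other vertices follow the order `pos`. -/
structure OrderedStar {n : ℕ} (a : ℝ × ℝ) (pB : Fin n → ℝ × ℝ) (f : Fin n → ℝ → ℝ)
    (pos : Fin n → Fin n) : Prop where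
  cont : ∀ q, ContinuousOn (f q) (Set.uIcc a.1 (pB q).1)
  start : ∀ q, f q a.1 = a.2
  fin : ∀ q, f q (pB q).1 = (pB q).2
  avoid : ∀ q v, InOpen a.1 (pB q).1 (pB v).1 → f q (pB v).1 ≠ (pB v).2
  star : IsStar (lcount a pB) pos
  right : ∀ r q, r < q → a.1 < (pB r).1 → ordBit pos r q = decide ((pB r).2 < f q (pB r).1)
  left : ∀ r q, r < q → (pB q).1 < a.1 → ordBit pos r q = decide (f r (pB q).1 < (pB q).2)

variable {n : ℕ} {a : ℝ × ℝ} {pB : Fin n → ℝ × ℝ}

theorem lt_lcount (hB : StrictMono fun q => (pB q).1) (q : Fin n) :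
    q.val < lcount a pB ↔ (pB q).1 < a.1 := by
  constructor
  · intro h
    by_contra hq
    push Not at hq
    have : lcount a pB ≤ (Finset.Iio q).card := by
      refine Finset.card_le_card fun k hk => ?_
      rw [mem_filter] at hk
      rw [mem_Iio]
      exact hB.lt_iff_lt.1 (hk.2.trans_le hq)
    rw [Fin.card_Iio] at this
    omega
  · intro hq
    have : (Finset.Iic q).card ≤ lcount a pB := by
      refine Finset.card_le_card fun k hk => ?_
      rw [mem_filter]
      exact ⟨mem_univ _, (hB.monotone (mem_Iic.1 hk)).trans_lt hq⟩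
    rw [Fin.card_Iic] at this
    omega

theorem lcount_le (hB : StrictMono fun q => (pB q).1) (hne : ∀ q, a.1 ≠ (pB q).1) (q : Fin n) :
    lcount a pB ≤ q.val ↔ a.1 < (pB q).1 := by
  rw [← not_lt, lt_lcount hB, not_lt]
  exact ⟨fun h => lt_of_le_of_ne h (hne q), le_of_lt⟩

/-- Opposite orders of two curves at two abscissae give a common point strictly between. -/
theorem curve_meet (a b c e : ℝ) (F G : ℝ → ℝ) (hF : ContinuousOn F (Set.uIcc a b))
    (hG : ContinuousOn G (Set.uIcc c e)) (L R : ℝ) (hLR : L < R)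
    (h1 : min a b ≤ L) (h2 : min c e ≤ L) (h3 : R ≤ max a b) (h4 : R ≤ max c e)
    (nL : F L ≠ G L) (nR : F R ≠ G R) (hne : decide (G L < F L) ≠ decide (G R < F R)) :
    ∃ x, InOpen a b x ∧ InOpen c e x ∧ F x = G x := by
  have sub : ∀ u v : ℝ, min u v ≤ L → R ≤ max u v → Set.Icc L R ⊆ Set.uIcc u v :=
    fun u v hu hv x hx => ⟨hu.trans hx.1, hx.2.trans hv⟩
  have c1 : ContinuousOn (fun x => F x - G x) (Set.Icc L R) :=
    (hF.mono (sub a b h1 h3)).sub (hG.mono (sub c e h2 h4))
  have betw : ∀ u v x : ℝ, min u v ≤ L → R ≤ max u v → x ∈ Set.Ioo L R → InOpen u v x := by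
    intro u v x hu hv hx
    have p1 := hu.trans_lt hx.1
    have p2 := hx.2.trans_le hv
    rcases le_total u v with h | h
    · rw [min_eq_left h] at p1; rw [max_eq_right h] at p2; exact Or.inl ⟨p1, p2⟩
    · rw [min_eq_right h] at p1; rw [max_eq_left h] at p2; exact Or.inr ⟨p1, p2⟩
  have fin : ∀ x ∈ Set.Ioo L R, F x - G x = 0 → ∃ x, InOpen a b x ∧ InOpen c e x ∧ F x = G x :=
    fun x hx hx0 => ⟨x, betw a b x h1 h3 hx, betw c e x h2 h4 hx, sub_eq_zero.1 hx0⟩
  rcases nL.lt_or_gt with a' | a' <;> rcases nR.lt_or_gt with b' | b'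
  · exact absurd hne (by simp [a'.not_gt, b'.not_gt])
  · obtain ⟨x, hx, hx0⟩ := intermediate_value_Ioo hLR.le c1
      (show (0 : ℝ) ∈ Set.Ioo _ _ from ⟨sub_neg.2 a', sub_pos.2 b'⟩)
    exact fin x hx hx0
  · obtain ⟨x, hx, hx0⟩ := intermediate_value_Ioo' hLR.le c1
      (show (0 : ℝ) ∈ Set.Ioo _ _ from ⟨sub_neg.2 b', sub_pos.2 a'⟩)
    exact fin x hx hx0
  · exact absurd hne (by simp [a', b'])

theorem not_decide_of_ne {x y : ℝ} (h : x ≠ y) : (!decide (x < y)) = decide (y < x) := by
  rcases h.lt_or_gt with h' | h' <;> simp [h', h'.not_gt]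

/-- The parity count of two ordered stars is at most the number of meeting pairs. -/
theorem starCount_le_meets {c : ℝ × ℝ} (hB : StrictMono fun q => (pB q).1)
    (hac : a.1 < c.1) (hna : ∀ q, a.1 ≠ (pB q).1) (hnc : ∀ q, c.1 ≠ (pB q).1)
    {f k : Fin n → ℝ → ℝ} {pa pc : Fin n → Fin n}
    (sa : OrderedStar a pB f pa) (sc : OrderedStar c pB k pc)
    (hca : ∀ q, InOpen a.1 (pB q).1 c.1 → f q c.1 ≠ c.2)
    (hac' : ∀ q, InOpen c.1 (pB q).1 a.1 → k q a.1 ≠ a.2) :
    ∃ z : Fin n → Bool, starCount (lcount a pB) (lcount c pB) (ordBit pa) (ordBit pc) z ≤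
      curveMeets a c pB f k := by
  classical
  refine ⟨fun q => if lcount c pB ≤ q.val then decide (c.2 < f q c.1)
    else decide (a.2 < k q a.1), ?_⟩
  set z : Fin n → Bool := fun q => if lcount c pB ≤ q.val then decide (c.2 < f q c.1)
    else decide (a.2 < k q a.1) with hz
  set M : Fin n → Fin n → ℕ := fun u v =>
    if ∃ x, InOpen a.1 (pB u).1 x ∧ InOpen c.1 (pB v).1 x ∧ f u x = k v x then 1 else 0 with hM
  have hmeet : curveMeets a c pB f k = ∑ r, ∑ q, if r < q then M q r + M r q else 0 := by
    have e1 : curveMeets a c pB f k = ∑ r, ∑ q, if r ≠ q then M r q else 0 := by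
      unfold curveMeets
      rw [Set.ncard_eq_toFinset_card', ← Fintype.sum_prod_type',
        show {e : Fin n × Fin n | e.1 ≠ e.2 ∧ ∃ x, InOpen a.1 (pB e.1).1 x ∧
          InOpen c.1 (pB e.2).1 x ∧ f e.1 x = k e.2 x}.toFinset = univ.filter fun e : Fin n × Fin n =>
          e.1 ≠ e.2 ∧ ∃ x, InOpen a.1 (pB e.1).1 x ∧ InOpen c.1 (pB e.2).1 x ∧ f e.1 x = k e.2 x
          from by ext; simp, Finset.card_filter]
      refine Finset.sum_congr rfl fun e _ => ?_
      by_cases h1 : e.1 ≠ e.2
      · by_cases h2 : ∃ x, InOpen a.1 (pB e.1).1 x ∧ InOpen c.1 (pB e.2).1 x ∧ f e.1 x = k e.2 x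
        · simp only [hM]
          rw [if_pos (show _ ∧ _ from ⟨h1, h2⟩), if_pos h1, if_pos h2]
        · simp only [hM]
          rw [if_neg (fun h => h2 h.2), if_pos h1, if_neg h2]
      · rw [if_neg (fun h => h1 h.1), if_neg h1]
    rw [e1]
    have e2 : ∀ r q : Fin n, (if r ≠ q then M r q else 0) =
        (if r < q then M r q else 0) + (if q < r then M r q else 0) := by
      intro r q
      rcases lt_trichotomy r q with h | h | h
      · simp [h, h.not_gt, h.ne]
      · simp [h]
      · simp [h, h.not_gt, h.ne']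
    simp only [e2, Finset.sum_add_distrib]
    conv_lhs => arg 2; rw [Finset.sum_comm]
    simp only [← Finset.sum_add_distrib]
    refine Finset.sum_congr rfl fun r _ => Finset.sum_congr rfl fun q _ => ?_
    split_ifs <;> omega
  have hM1 : ∀ u v, (∃ x, InOpen a.1 (pB u).1 x ∧ InOpen c.1 (pB v).1 x ∧ f u x = k v x) →
      M u v = 1 := fun u v h => by simp only [hM]; rw [if_pos h]
  rw [hmeet]
  refine Finset.sum_le_sum fun r _ => Finset.sum_le_sum fun q _ => ?_
  by_cases hrq : r < q
  swap
  · simp [hrq]
  simp only [hrq, if_true]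
  have hx : (pB r).1 < (pB q).1 := hB hrq
  have hrq' : r.val < q.val := hrq
  have hgh : lcount a pB ≤ lcount c pB :=
    Finset.card_le_card fun k hk => by
      rw [mem_filter] at hk ⊢
      exact ⟨hk.1, hk.2.trans hac⟩
  have zR : ∀ k' : Fin n, lcount c pB ≤ k'.val → z k' = decide (c.2 < f k' c.1) :=
    fun k' hk => by simp [hz, hk]
  have zL : ∀ k' : Fin n, k'.val < lcount a pB → z k' = decide (a.2 < k k' a.1) :=
    fun k' hk => by simp [hz, (hk.trans_le hgh).not_ge]
  unfold pairTerm
  by_cases hout : q.val < lcount a pB ∨ lcount c pB ≤ r.val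
  · rw [if_pos hout]
    rcases hout with hq | hr
    · -- both left of `a`
      have qa := (lt_lcount hB q).1 hq
      have ra := hx.trans qa
      have qc := qa.trans hac
      have t1 : z q ≠ ordBit pa r q → M r q = 1 := by
        intro hne
        refine hM1 r q ?_
        obtain ⟨P, h1, h2, h3⟩ := curve_meet c.1 (pB q).1 a.1 (pB r).1 (k q) (f r) (sc.cont q)
          (sa.cont r) (pB q).1 a.1 qa
          (min_le_right _ _) (min_le_of_right_le hx.le) (le_max_of_le_left hac.le) (le_max_left _ _)
          (by rw [sc.fin q]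
              exact (sa.avoid r q (Or.inr ⟨hx, qa⟩)).symm)
          (by rw [sa.start r]
              exact hac' q (Or.inr ⟨qa, hac⟩))
          (by rw [sa.start r, sc.fin q,
                ← sa.left r q hrq qa, ← zL q hq]
              exact hne.symm)
        exact ⟨P, h2, h1, h3.symm⟩
      have t2 : z r ≠ (!ordBit pc r q) → M q r = 1 := by
        intro hne
        refine hM1 q r ?_
        have nL := sc.avoid r q (Or.inr ⟨hx, qc⟩)
        obtain ⟨P, h1, h2, h3⟩ := curve_meet c.1 (pB r).1 a.1 (pB q).1 (k r) (f q) (sc.cont r)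
          (sa.cont q) (pB q).1 a.1 qa
          (min_le_of_right_le hx.le) (min_le_right _ _) (le_max_of_le_left hac.le) (le_max_left _ _)
          (by rw [sa.fin q]; exact nL)
          (by rw [sa.start q]
              exact hac' r (Or.inr ⟨ra, hac⟩))
          (by rw [sa.start q, sa.fin q, ← not_decide_of_ne nL,
                ← sc.left r q hrq qc, ← zL r (hrq'.trans hq)]
              exact hne.symm)
        exact ⟨P, h2, h1, h3.symm⟩
      split_ifs with u v v
      · rw [t1 u, t2 v]
      · rw [t1 u]; omega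
      · rw [t2 v]; omega
      · omega
    · -- both right of `c`
      have rc := (lcount_le hB hnc r).1 hr
      have qc := rc.trans hx
      have ra := hac.trans rc
      have t1 : z q ≠ ordBit pa r q → M q r = 1 := by
        intro hne
        refine hM1 q r ?_
        exact curve_meet a.1 (pB q).1 c.1 (pB r).1 (f q) (k r) (sa.cont q) (sc.cont r)
          c.1 (pB r).1 rc
          (min_le_of_left_le hac.le) (min_le_left _ _) (le_max_of_le_right hx.le) (le_max_right _ _)
          (by rw [sc.start r]
              exact hca q (Or.inl ⟨hac, qc⟩))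
          (by rw [sc.fin r]
              exact sa.avoid q r (Or.inl ⟨ra, hx⟩))
          (by rw [sc.start r, sc.fin r,
                ← sa.right r q hrq ra, ← zR q (hr.trans hrq'.le)]
              exact hne)
      have t2 : z r ≠ (!ordBit pc r q) → M r q = 1 := by
        intro hne
        refine hM1 r q ?_
        have nR := sc.avoid q r (Or.inl ⟨rc, hx⟩)
        exact curve_meet a.1 (pB r).1 c.1 (pB q).1 (f r) (k q) (sa.cont r) (sc.cont q)
          c.1 (pB r).1 rc
          (min_le_of_left_le hac.le) (min_le_left _ _) (le_max_right _ _) (le_max_of_le_right hx.le)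
          (by rw [sc.start q]
              exact hca r (Or.inl ⟨hac, rc⟩))
          (by rw [sa.fin r]; exact nR.symm)
          (by rw [sc.start q, sa.fin r, ← not_decide_of_ne nR.symm,
                ← sc.right r q hrq rc, ← zR r hr]
              exact hne)
      split_ifs with u v v
      · rw [t1 u, t2 v]
      · rw [t1 u]; omega
      · rw [t2 v]; omega
      · omega
  · rw [if_neg hout]
    push Not at hout
    obtain ⟨hgq, hrh⟩ := hout
    have qa := (lcount_le hB hna q).1 hgq
    have rc := (lt_lcount hB r).1 hrh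
    have main : ∀ (L R : ℝ), L < R → a.1 ≤ L → (pB r).1 ≤ L → R ≤ (pB q).1 → R ≤ c.1 →
        f q L ≠ k r L → f q R ≠ k r R →
        decide (k r L < f q L) ≠
          decide (k r R < f q R) → M q r = 1 :=
      fun L R h0 h1 h2 h3 h4 nL nR hne => hM1 q r (curve_meet a.1 (pB q).1 c.1 (pB r).1 (f q) (k r)
        (sa.cont q) (sc.cont r) L R h0
        (min_le_of_left_le h1) (min_le_of_right_le h2) (le_max_of_le_right h3)
        (le_max_of_le_left h4) nL nR hne)
    by_cases hr : r.val < lcount a pB
    · rw [if_pos hr]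
      have ra := (lt_lcount hB r).1 hr
      have nL : k r a.1 ≠ f q a.1 := by
        rw [sa.start q]
        exact hac' r (Or.inr ⟨ra, hac⟩)
      by_cases hq : lcount c pB ≤ q.val
      · rw [if_pos hq]
        have qc := (lcount_le hB hnc q).1 hq
        split_ifs with u
        · refine le_trans (main a.1 c.1 hac le_rfl ra.le qc.le le_rfl nL.symm ?_ ?_).ge
            (Nat.le_add_right _ _)
          · rw [sc.start r]
            exact hca q (Or.inl ⟨hac, qc⟩)
          · rw [← not_decide_of_ne nL.symm, sa.start q, sc.start r,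
              ← zL r hr, ← zR q hq, u]
            cases z r <;> decide
        · omega
      · rw [if_neg hq]
        push Not at hq
        have qc := (lt_lcount hB q).1 hq
        have nR : k r (pB q).1 ≠ (pB q).2 :=
          sc.avoid r q (Or.inr ⟨hx, qc⟩)
        split_ifs with u
        · refine le_trans (main a.1 (pB q).1 qa le_rfl ra.le le_rfl qc.le nL.symm ?_ ?_).ge
            (Nat.le_add_right _ _)
          · rw [sa.fin q]
            exact nR.symm
          · rw [← not_decide_of_ne nL.symm, sa.start q, sa.fin q,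
              ← zL r hr, ← sc.left r q hrq qc]
            revert u
            cases z r <;> cases ordBit pc r q <;> decide
        · omega
    · rw [if_neg hr]
      push Not at hr
      have ra := (lcount_le hB hna r).1 hr
      have nL : f q (pB r).1 ≠ k r (pB r).1 := by
        rw [sc.fin r]
        exact sa.avoid q r (Or.inl ⟨ra, hx⟩)
      by_cases hq : lcount c pB ≤ q.val
      · rw [if_pos hq]
        have qc := (lcount_le hB hnc q).1 hq
        split_ifs with u
        · refine le_trans (main (pB r).1 c.1 rc ra.le le_rfl qc.le le_rfl nL ?_ ?_).ge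
            (Nat.le_add_right _ _)
          · rw [sc.start r]
            exact hca q (Or.inl ⟨hac, qc⟩)
          · rw [sc.fin r, sc.start r,
              ← sa.right r q hrq ra, ← zR q hq]
            exact u.symm
        · omega
      · rw [if_neg hq]
        push Not at hq
        have qc := (lt_lcount hB q).1 hq
        split_ifs with u
        · refine le_trans (main (pB r).1 (pB q).1 hx ra.le le_rfl le_rfl qc.le nL ?_ ?_).ge
            (Nat.le_add_right _ _)
          · rw [sa.fin q]
            exact (sc.avoid r q (Or.inr ⟨hx, qc⟩)).symm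
          · rw [sc.fin r, sa.fin q,
              ← sa.right r q hrq ra, ← sc.left r q hrq qc]
            exact u
        · omega

/-- A potential bounds the meeting pairs of sorted ordered stars. -/
theorem sorted_bound {m d : ℕ} (hpot : HasPotential n d) (pA : Fin m → ℝ × ℝ)
    (hA : StrictMono fun i => (pA i).1) (hB : StrictMono fun q => (pB q).1)
    (hne : ∀ i q, (pA i).1 ≠ (pB q).1) (f : Fin m → Fin n → ℝ → ℝ) (pos : Fin m → Fin n → Fin n)
    (hs : ∀ i, OrderedStar (pA i) pB (f i) (pos i))
    (hav : ∀ i j q, InOpen (pA i).1 (pB q).1 (pA j).1 → f i q (pA j).1 ≠ (pA j).2) :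
    m / 2 * ((m - 1) / 2) * d ≤ ∑ i : Fin m, ∑ j : Fin m,
      if i < j then curveMeets (pA i) (pA j) pB (f i) (f j) else 0 := by
  have ex : ∀ i j : Fin m, ∃ z : Fin n → Bool, i < j →
      starCount (lcount (pA i) pB) (lcount (pA j) pB) (ordBit (pos i)) (ordBit (pos j)) z ≤
        curveMeets (pA i) (pA j) pB (f i) (f j) := by
    intro i j
    by_cases h : i < j
    · obtain ⟨z, hz⟩ := starCount_le_meets hB (hA h) (hne i) (hne j) (hs i) (hs j)
        (fun q hq => hav i j q hq) (fun q hq => hav j i q hq)
      exact ⟨z, fun _ => hz⟩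
    · exact ⟨fun _ => false, fun h' => absurd h' h⟩
  choose z hz using ex
  have hg : Monotone fun i => lcount (pA i) pB := by
    intro i j hij
    refine Finset.card_le_card fun q hq => ?_
    rw [mem_filter] at hq ⊢
    exact ⟨hq.1, hq.2.trans_le (hA.monotone hij)⟩
  refine (sum_bound_of_potential hpot _ pos hg (fun i => (hs i).star) z).trans ?_
  refine Finset.sum_le_sum fun i _ => Finset.sum_le_sum fun j _ => ?_
  by_cases h : i < j
  · simp only [h, if_true]
    exact hz i j h
  · simp [h]

end Vale.Agent.P040.Rect
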