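import Vale.Agent.P040.Rect.Defs

/-!
Counting cyclically close and far pairs between segments of positions.
-/

namespace Vale.Agent.P040.Rect

open Finset

/-- Number of pairs at distance above `p` inside a segment of length `n`. -/
def far (p n : ℕ) : ℤ := ∑ i ∈ range (n - p), (i : ℤ)

/-- Number of pairs at distance above `p` between two segments with gap `D`. -/
def farX (p u v D : ℕ) : ℤ := far p (D + u + v) - far p (D + u) - far p (D + v) + far p D

/-- Position `x` is one of the `p` cyclic predecessors of `y`. -/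
def pr (p x y : ℕ) : ℤ := b2i (x ≠ y ∧ (y + (2 * p + 1) - x) % (2 * p + 1) ≤ p)

theorem far_succ (p n : ℕ) : far p (n + 1) = far p n + ((n - p : ℕ) : ℤ) := by
  unfold far
  rcases le_or_gt p n with h | h
  · rw [Nat.succ_sub h, sum_range_succ]
  · rw [Nat.sub_eq_zero_of_le h, Nat.sub_eq_zero_of_le h.le]; simp

theorem far_small (p : ℕ) : far p 0 = 0 := by simp [far]

theorem two_sum_range (k : ℕ) : 2 * ∑ i ∈ range k, (i : ℤ) = (k : ℤ) * (k - 1) := by
  induction k with
  | zero => simp
  | succ k ih => rw [sum_range_succ]; push_cast; linarith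

theorem two_far (p n : ℕ) : 2 * far p n = ((n - p : ℕ) : ℤ) * (((n - p : ℕ) : ℤ) - 1) :=
  two_sum_range _

theorem far_reflect (p n n' : ℕ) (h : n + n' = 2 * p + 1) :
    2 * far p n + 2 * far p n' = ((n : ℤ) - p) * ((n : ℤ) - p - 1) := by
  rw [two_far, two_far]
  rcases le_or_gt n p with hn | hn
  · rw [Nat.sub_eq_zero_of_le hn, show n' - p = p + 1 - n by omega, Nat.cast_sub (by omega)]
    push_cast; ring
  · rw [Nat.sub_eq_zero_of_le (show n' ≤ p by omega), Nat.cast_sub hn.le]
    push_cast; ring

theorem sum_sub (p c v : ℕ) :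
    ∑ j ∈ range v, ((c + j - p : ℕ) : ℤ) = far p (c + v) - far p c := by
  induction v with
  | zero => simp
  | succ v ih => rw [sum_range_succ, ih, ← add_assoc, far_succ]; ring

theorem sum_lt (p u y : ℕ) :
    ∑ i ∈ range u, b2i (i + p < y) = ((y - p : ℕ) : ℤ) - ((y - p - u : ℕ) : ℤ) := by
  induction u with
  | zero => simp
  | succ u ih =>
    rw [sum_range_succ, ih, b2i]
    split_ifs <;> omega

theorem sum_gt (o u c : ℕ) :
    ∑ i ∈ range u, b2i (c < o + i) = ((min u (o + u - (c + 1)) : ℕ) : ℤ) := by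
  induction u with
  | zero => simp
  | succ u ih =>
    rw [sum_range_succ, ih, b2i]
    split_ifs <;> omega

theorem far_cross (p u v D : ℕ) :
    ∑ i ∈ range u, ∑ j ∈ range v, b2i (i + p < u + D + j) = farX p u v D := by
  rw [sum_comm]
  simp only [sum_lt, sum_sub_distrib]
  rw [sum_congr rfl fun j _ => show ((u + D + j - p - u : ℕ) : ℤ) = ((D + j - p : ℕ) : ℤ) by
    congr 1; omega, sum_sub, sum_sub, farX, show u + D + v = D + u + v by omega,
    show u + D = D + u by omega]
  ring

theorem farX_comm (p u v D : ℕ) : farX p u v D = farX p v u D := by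
  rw [farX, farX, show D + u + v = D + v + u by omega]; ring

theorem pr_lt (p x y : ℕ) (h : x < y) (hy : y < 2 * p + 1) : pr p x y = 1 - b2i (x + p < y) := by
  have e : (y + (2 * p + 1) - x) % (2 * p + 1) = y - x := by
    rw [show y + (2 * p + 1) - x = (y - x) + (2 * p + 1) by omega, Nat.add_mod_right,
      Nat.mod_eq_of_lt (by omega)]
  simp only [pr, b2i, e]
  split_ifs <;> omega

theorem pr_gt (p x y : ℕ) (h : y < x) (hx : x < 2 * p + 1) : pr p x y = b2i (y + p < x) := by
  have e : (y + (2 * p + 1) - x) % (2 * p + 1) = y + (2 * p + 1) - x :=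
    Nat.mod_eq_of_lt (by omega)
  simp only [pr, b2i, e]
  split_ifs <;> omega

/-- A later segment seen from an earlier one. -/
theorem pr_fwd (p o o' u v D : ℕ) (h : o' = o + u + D) (hN : o' + v ≤ 2 * p + 1) :
    ∑ i ∈ range u, ∑ j ∈ range v, pr p (o + i) (o' + j) = (u : ℤ) * v - farX p u v D := by
  rw [← far_cross]
  have : ∀ i ∈ range u, ∀ j ∈ range v,
      pr p (o + i) (o' + j) = 1 - b2i (i + p < u + D + j) := fun i hi j hj => by
    rw [mem_range] at hi hj
    rw [pr_lt p _ _ (by omega) (by omega)]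
    congr 1
    simp only [b2i]
    split_ifs <;> omega
  rw [sum_congr rfl fun i hi => sum_congr rfl fun j hj => this i hi j hj]
  simp only [sum_sub_distrib, sum_const, card_range, nsmul_eq_mul, mul_one]

/-- An earlier segment seen from a later one. -/
theorem pr_bwd (p o o' u v D : ℕ) (h : o' = o + u + D) (hN : o' + v ≤ 2 * p + 1) :
    ∑ j ∈ range v, ∑ i ∈ range u, pr p (o' + j) (o + i) = farX p u v D := by
  rw [sum_comm, ← far_cross]
  refine sum_congr rfl fun i hi => sum_congr rfl fun j hj => ?_
  rw [mem_range] at hi hj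
  rw [pr_gt p _ _ (by omega) (by omega)]
  simp only [b2i]
  split_ifs <;> omega

theorem self_far (p u : ℕ) : ∑ i ∈ range u, ∑ j ∈ range u, b2i (i + p < j) = far p u := by
  have h : ∀ j ∈ range u, ∑ i ∈ range u, b2i (i + p < j) = ((0 + j - p : ℕ) : ℤ) := fun j hj => by
    rw [mem_range] at hj
    rw [sum_lt, show j - p - u = 0 by omega, Nat.zero_add]
    simp
  rw [sum_comm, sum_congr rfl h, sum_sub, Nat.zero_add, far_small, sub_zero]

/-- A segment in decreasing order. -/
theorem pr_desc (p o u : ℕ) (hN : o + u ≤ 2 * p + 1) :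
    ∑ i ∈ range u, ∑ j ∈ range u, b2i (j < i) * pr p (o + i) (o + j) = far p u := by
  rw [← self_far, sum_comm]
  refine sum_congr rfl fun j hj => sum_congr rfl fun i hi => ?_
  rw [mem_range] at hi hj
  rcases lt_or_ge j i with h | h
  · rw [pr_gt p _ _ (by omega) (by omega)]
    simp only [b2i, if_pos h, one_mul]
    split_ifs <;> omega
  · simp only [b2i]; split_ifs <;> omega

/-- A segment in increasing order. -/
theorem pr_asc (p o u : ℕ) (hN : o + u ≤ 2 * p + 1) :
    2 * ∑ i ∈ range u, ∑ j ∈ range u, b2i (i < j) * pr p (o + i) (o + j) =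
      (u : ℤ) * (u - 1) - 2 * far p u := by
  have e : ∀ i ∈ range u, ∀ j ∈ range u, b2i (i < j) * pr p (o + i) (o + j) =
      b2i (i + 0 < j) - b2i (i + p < j) := fun i hi j hj => by
    rw [mem_range] at hi hj
    rcases lt_or_ge i j with h | h
    · rw [pr_lt p _ _ (by omega) (by omega)]
      simp only [b2i, if_pos h, Nat.add_zero, one_mul]
      split_ifs <;> omega
    · simp only [b2i]; split_ifs <;> omega
  rw [sum_congr rfl fun i hi => sum_congr rfl fun j hj => e i hi j hj]
  simp only [sum_sub_distrib, self_far, mul_sub]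
  rw [two_far 0 u, Nat.sub_zero]
  ring

theorem two_wid_sum (p n : ℕ) (hn : n ≤ 2 * p + 1) :
    2 * ∑ i ∈ range n, ((min i (2 * p - i) : ℕ) : ℤ) = (n : ℤ) * (n - 1) - 4 * far p n := by
  induction n with
  | zero => simp [far_small]
  | succ n ih =>
    have e : ((min n (2 * p - n) : ℕ) : ℤ) = (n : ℤ) - 2 * ((n - p : ℕ) : ℤ) := by omega
    rw [sum_range_succ, far_succ, e]
    have := ih (by omega)
    push_cast at this ⊢
    linarith

theorem far_superadd (p u v : ℕ) : far p u + far p v ≤ far p (u + v) := by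
  have h := far_cross p u v 0
  have : 0 ≤ farX p u v 0 := h ▸ sum_nonneg fun i _ => sum_nonneg fun j _ => by
    simp only [b2i]; split_ifs <;> norm_num
  simp only [farX, far_small, Nat.zero_add] at this
  linarith

theorem farX_sum_tent (p u v m : ℕ) :
    ∑ z ∈ range m, (((u + v + z - p : ℕ) : ℤ) - ((u + z - p : ℕ) : ℤ) - ((v + z - p : ℕ) : ℤ) +
      ((0 + z - p : ℕ) : ℤ)) = farX p u v m - farX p u v 0 := by
  simp only [sum_add_distrib, sum_sub_distrib, sum_sub]
  simp only [farX, Nat.zero_add, far_small]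
  rw [show m + u + v = u + v + m by omega, show m + u = u + m by omega,
    show m + v = v + m by omega]
  ring

end Vale.Agent.P040.Rect
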