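import Vale.Agent.P040.Rect.Curves

/-!
Straight-line drawings give stars whose parity count is at most the number of meeting pairs.
-/

namespace Vale.Agent.P040.Rect

open Finset Vale.Agent.P040

/-- The slope of the line through two points. -/
noncomputable def slopeOf (a b : ℝ × ℝ) : ℝ := (b.2 - a.2) / (b.1 - a.1)

theorem lineAt_sub (a b c : ℝ × ℝ) (h : a.1 ≠ c.1) :
    lineAt a b c.1 - c.2 = (slopeOf a b - slopeOf a c) * (c.1 - a.1) := by
  have h0 : c.1 - a.1 ≠ 0 := sub_ne_zero.2 h.symm
  unfold lineAt slopeOf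
  field_simp
  ring

theorem lineAt_ne (a b v : ℝ × ℝ) (hv : v ∉ openSegment ℝ a b)
    (hx : (a.1 < v.1 ∧ v.1 < b.1) ∨ (b.1 < v.1 ∧ v.1 < a.1)) : lineAt a b v.1 ≠ v.2 := by
  intro h
  have := mem_openSegment_of_lineAt a b v.1 hx
  rw [h] at this
  exact hv this

/-- Angle key: right block by slope ascending, then left block by slope descending. -/
noncomputable def key {n : ℕ} (a : ℝ × ℝ) (pB : Fin n → ℝ × ℝ) (q : Fin n) : ℝ :=
  if a.1 < (pB q).1 then Real.arctan (slopeOf a (pB q))
  else Real.pi - Real.arctan (slopeOf a (pB q))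

/-- Height order of a star. -/
noncomputable def starPos {n : ℕ} (a : ℝ × ℝ) (pB : Fin n → ℝ × ℝ) : Fin n → Fin n :=
  (Tuple.sort (key a pB)).symm

variable {n : ℕ} {a : ℝ × ℝ} {pB : Fin n → ℝ × ℝ}

theorem key_ne (hB : StrictMono fun q => (pB q).1) (hne : ∀ q, a.1 ≠ (pB q).1)
    (hseg : ∀ k l, pB l ∉ openSegment ℝ a (pB k)) : Function.Injective (key a pB) := by
  suffices h : ∀ r q : Fin n, r < q → key a pB r ≠ key a pB q by
    intro r q e
    by_contra hrq
    rcases lt_or_gt_of_ne hrq with h' | h'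
    · exact h r q h' e
    · exact h q r h' e.symm
  intro r q hrq e
  have hx : (pB r).1 < (pB q).1 := hB hrq
  have a1 := Real.arctan_lt_pi_div_two (slopeOf a (pB r))
  have a2 := Real.neg_pi_div_two_lt_arctan (slopeOf a (pB r))
  have b1 := Real.arctan_lt_pi_div_two (slopeOf a (pB q))
  have b2 := Real.neg_pi_div_two_lt_arctan (slopeOf a (pB q))
  unfold key at e
  by_cases hr : a.1 < (pB r).1
  · rw [if_pos hr, if_pos (hr.trans hx)] at e
    have hs := Real.arctan_injective e
    refine lineAt_ne a (pB q) (pB r) (hseg q r) (Or.inl ⟨hr, hx⟩) ?_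
    have := lineAt_sub a (pB q) (pB r) (hne r)
    rw [hs, sub_self, zero_mul] at this
    linarith
  · rw [if_neg hr] at e
    by_cases hq : a.1 < (pB q).1
    · rw [if_pos hq] at e
      linarith
    · rw [if_neg hq] at e
      have hs := Real.arctan_injective (show Real.arctan (slopeOf a (pB r)) =
        Real.arctan (slopeOf a (pB q)) by linarith)
      refine lineAt_ne a (pB r) (pB q) (hseg r q)
        (Or.inr ⟨hx, lt_of_le_of_ne (not_lt.1 hq) (hne q).symm⟩) ?_
      have := lineAt_sub a (pB r) (pB q) (hne q)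
      rw [hs, sub_self, zero_mul] at this
      linarith

theorem isStar_starPos (hB : StrictMono fun q => (pB q).1) (hne : ∀ q, a.1 ≠ (pB q).1)
    (hseg : ∀ k l, pB l ∉ openSegment ℝ a (pB k)) :
    IsStar (lcount a pB) (starPos a pB) := by
  refine ⟨?_, (Tuple.sort (key a pB)).symm.injective, fun l r hl hr => ?_⟩
  · exact (Finset.card_le_univ _).trans_eq (Fintype.card_fin n)
  · show (Tuple.sort (key a pB)).symm r < (Tuple.sort (key a pB)).symm l
    rw [symm_sort_lt _ (key_ne hB hne hseg)]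
    unfold key
    rw [if_pos ((lcount_le hB hne r).1 hr), if_neg ((lt_lcount hB l).1 hl).not_gt]
    linarith [Real.arctan_lt_pi_div_two (slopeOf a (pB r)),
      Real.arctan_lt_pi_div_two (slopeOf a (pB l))]

theorem ordBit_right (hB : StrictMono fun q => (pB q).1) (hne : ∀ q, a.1 ≠ (pB q).1)
    (hseg : ∀ k l, pB l ∉ openSegment ℝ a (pB k)) {r q : Fin n} (hrq : r < q)
    (hr : a.1 < (pB r).1) :
    ordBit (starPos a pB) r q = decide ((pB r).2 < lineAt a (pB q) (pB r).1) := by
  rw [ordBit, decide_eq_decide]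
  show (Tuple.sort (key a pB)).symm r < (Tuple.sort (key a pB)).symm q ↔ _
  rw [symm_sort_lt _ (key_ne hB hne hseg)]
  unfold key
  rw [if_pos hr, if_pos (hr.trans (hB hrq)), Real.arctan_strictMono.lt_iff_lt,
    ← sub_pos (b := (pB r).2), lineAt_sub a (pB q) (pB r) (hne r),
    mul_pos_iff_of_pos_right (sub_pos.2 hr), sub_pos]

theorem ordBit_left (hB : StrictMono fun q => (pB q).1) (hne : ∀ q, a.1 ≠ (pB q).1)
    (hseg : ∀ k l, pB l ∉ openSegment ℝ a (pB k)) {r q : Fin n} (hrq : r < q)
    (hq : (pB q).1 < a.1) :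
    ordBit (starPos a pB) r q = decide (lineAt a (pB r) (pB q).1 < (pB q).2) := by
  rw [ordBit, decide_eq_decide]
  show (Tuple.sort (key a pB)).symm r < (Tuple.sort (key a pB)).symm q ↔ _
  rw [symm_sort_lt _ (key_ne hB hne hseg)]
  unfold key
  rw [if_neg ((hB hrq).trans hq).not_gt, if_neg hq.not_gt, sub_lt_sub_iff_left,
    Real.arctan_strictMono.lt_iff_lt]
  have := lineAt_sub a (pB r) (pB q) (hne q)
  constructor
  · intro h
    have : (slopeOf a (pB r) - slopeOf a (pB q)) * ((pB q).1 - a.1) < 0 :=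
      mul_neg_of_pos_of_neg (by linarith) (by linarith)
    linarith
  · intro h
    by_contra hh
    push Not at hh
    have : 0 ≤ (slopeOf a (pB r) - slopeOf a (pB q)) * ((pB q).1 - a.1) :=
      mul_nonneg_of_nonpos_of_nonpos (by linarith) (by linarith)
    linarith

/-- A straight-line star, as an ordered star of graphs. -/
theorem orderedStar_lineAt (hB : StrictMono fun q => (pB q).1) (hne : ∀ q, a.1 ≠ (pB q).1)
    (hseg : ∀ k l, pB l ∉ openSegment ℝ a (pB k)) :
    OrderedStar a pB (fun q => lineAt a (pB q)) (starPos a pB) where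
  cont q := by
    refine Continuous.continuousOn ?_
    unfold lineAt
    fun_prop
  start q := lineAt_left a (pB q)
  fin q := lineAt_right a (pB q) (hne q)
  avoid q v h := lineAt_ne a (pB q) (pB v) (hseg q v) h
  star := isStar_starPos hB hne hseg
  right _ _ hrq hr := ordBit_right hB hne hseg hrq hr
  left _ _ hrq hq := ordBit_left hB hne hseg hrq hq

theorem curveMeets_lineAt_le (c : ℝ × ℝ) :
    curveMeets a c pB (fun q => lineAt a (pB q)) (fun q => lineAt c (pB q)) ≤ meetPairs a c pB := by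
  refine Set.ncard_le_ncard ?_ (Set.toFinite _)
  rintro ⟨u, v⟩ ⟨hne, x, hu, hv, e⟩
  refine ⟨hne, (x, lineAt a (pB u) x), mem_openSegment_of_lineAt _ _ x hu, ?_⟩
  simp only at e ⊢
  rw [e]
  exact mem_openSegment_of_lineAt _ _ x hv

end Vale.Agent.P040.Rect
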