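import Vale.Agent.P040.Rect.Defs
import Vale.Agent.P040.Rect.Far

/-!
The Lipschitz bound of the potential for the number of inversions inside the blocks.
-/

namespace Vale.Agent.P040.Rect

open Finset

theorem b2i_nonneg' (c : Prop) [Decidable c] : 0 ≤ b2i c := by
  unfold b2i; split_ifs <;> norm_num

theorem inv_nonneg' {N : ℕ} (g : ℕ) (π ρ : Equiv.Perm (Fin N)) : 0 ≤ inv g π ρ :=
  Finset.sum_nonneg fun _ _ => Finset.sum_nonneg fun _ _ => b2i_nonneg' _

theorem b2i_pred (p : ℕ) (π : Equiv.Perm (Fin (2 * p + 1))) (k q : Fin (2 * p + 1)) :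
    b2i (Pred p π k q) = pr p (π k).val (π q).val := by
  have e : k ≠ q ↔ (π k).val ≠ (π q).val := not_congr (Fin.val_inj.trans π.injective.eq_iff).symm
  simp only [pr, b2i, Pred, e]

theorem pot_eq (p : ℕ) (π : Equiv.Perm (Fin (2 * p + 1))) (q : Fin (2 * p + 1)) :
    pot p π q = ∑ k, b2i (k < q) * pr p (π k).val (π q).val := by
  refine Finset.sum_congr rfl fun k _ => ?_
  rw [← b2i_pred]
  simp only [b2i]
  by_cases h : k < q <;> simp [h]

/-- Position next to the far end of the window of predecessors. -/
def cpos (p X : ℕ) : ℕ := if X + 1 + p < 2 * p + 1 then X + 1 + p else X - p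

theorem pr_src (p X z : ℕ) (hX : X + 1 < 2 * p + 1) (hz : z < 2 * p + 1) (h0 : z ≠ X)
    (h1 : z ≠ X + 1) : pr p (X + 1) z - pr p X z = b2i (z = cpos p X) := by
  rcases lt_or_gt_of_ne h0 with h | h
  · rw [pr_gt p _ _ (by omega) hX, pr_gt p _ _ h (by omega)]
    simp only [b2i, cpos]; split_ifs <;> omega
  · rw [pr_lt p _ _ (by omega) hz, pr_lt p _ _ h hz]
    simp only [b2i, cpos]; split_ifs <;> omega

theorem pr_tgt (p X z : ℕ) (hX : X + 1 < 2 * p + 1) (hz : z < 2 * p + 1) (h0 : z ≠ X)
    (h1 : z ≠ X + 1) : pr p z (X + 1) - pr p z X = -b2i (z = cpos p X) := by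
  rcases lt_or_gt_of_ne h0 with h | h
  · rw [pr_lt p _ _ (by omega) hX, pr_lt p _ _ h (by omega)]
    simp only [b2i, cpos]; split_ifs <;> omega
  · rw [pr_gt p _ _ (by omega) hz, pr_gt p _ _ h hz]
    simp only [b2i, cpos]; split_ifs <;> omega

theorem sum_b2i_eq {α : Type*} [Fintype α] [DecidableEq α] (a : α) (c : ℤ) :
    ∑ k : α, b2i (k = a) * c = c := by
  rw [Finset.sum_eq_single a]
  · simp [b2i]
  · intro k _ hk; simp [b2i, hk]
  · intro h; exact absurd (Finset.mem_univ a) h

/-- An adjacent exchange changes the potential by at most one in total. -/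
theorem pot_swap (p : ℕ) (π : Equiv.Perm (Fin (2 * p + 1))) (a b : Fin (2 * p + 1))
    (hX : (π b).val = (π a).val + 1) :
    ∑ q, |pot p π q - pot p ((Equiv.swap a b).trans π) q| ≤ 1 := by
  set π' := (Equiv.swap a b).trans π with hπ'
  set X := (π a).val with hXdef
  have hXN : X + 1 < 2 * p + 1 := hX ▸ (π b).isLt
  have hab : a ≠ b := by
    intro e; rw [← e] at hX; omega
  have ea : (π' a).val = X + 1 := by simp [hπ', hX]
  have eb : (π' b).val = X := by simp [hπ', hXdef]
  have eo : ∀ k, k ≠ a → k ≠ b → (π' k).val = (π k).val := by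
    intro k h1 h2; simp [hπ', Equiv.swap_apply_of_ne_of_ne h1 h2]
  have ne_a : ∀ k, k ≠ a → (π k).val ≠ X := fun k h e => h (π.injective (Fin.ext e))
  have ne_b : ∀ k, k ≠ b → (π k).val ≠ X + 1 := fun k h e =>
    h (π.injective (Fin.ext (e.trans hX.symm)))
  have hc : cpos p X < 2 * p + 1 := by simp only [cpos]; split_ifs <;> omega
  set C := π.symm ⟨cpos p X, hc⟩ with hC
  have hC' : (π C).val = cpos p X := by simp [hC]
  have eqC : ∀ k, (π k).val = cpos p X ↔ k = C := fun k =>
    ⟨fun e => π.injective (Fin.ext (e.trans hC'.symm)), fun e => e ▸ hC'⟩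
  have hCa : C ≠ a := by
    intro e; rw [e] at hC'; simp only [cpos, ← hXdef] at hC'; split_ifs at hC' <;> omega
  have hCb : C ≠ b := by
    intro e; rw [e, hX] at hC'; simp only [cpos] at hC'; split_ifs at hC' <;> omega
  have d : ∀ q, pot p π' q - pot p π q =
      b2i (q = a) * (b2i (b < a) - b2i (C < a)) + b2i (q = b) * (b2i (C < b) - b2i (a < b)) +
        b2i (q = C) * (b2i (a < C) - b2i (b < C)) := by
    intro q
    rw [pot_eq, pot_eq, ← Finset.sum_sub_distrib]
    rcases eq_or_ne q a with hqa | hqa
    · subst q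
      rw [Finset.sum_congr rfl (g := fun k =>
        b2i (k = b) * b2i (b < a) - b2i (k = C) * b2i (C < a)) fun k _ => ?_]
      · rw [Finset.sum_sub_distrib, sum_b2i_eq, sum_b2i_eq]
        simp [b2i, hab, hCa.symm]
      · rcases eq_or_ne k a with rfl | hka
        · simp [b2i, hab, hCa.symm]
        rcases eq_or_ne k b with rfl | hkb
        · rw [ea, eb, hX, ← hXdef, pr_lt p _ _ (by omega) hXN, pr_gt p _ _ (by omega) hXN]
          simp only [b2i, hCb.symm, if_false, if_true]
          split_ifs <;> omega
        · rw [ea, eo k hka hkb, ← hXdef, ← mul_sub,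
            pr_tgt p X _ hXN (π k).isLt (ne_a k hka) (ne_b k hkb)]
          by_cases hk : k = C
          · subst hk; simp [b2i, hkb, hC']
          · simp [b2i, hkb, hk, (eqC k).not.2 hk]
    rcases eq_or_ne q b with hqb | hqb
    · subst q
      rw [Finset.sum_congr rfl (g := fun k =>
        b2i (k = C) * b2i (C < b) - b2i (k = a) * b2i (a < b)) fun k _ => ?_]
      · rw [Finset.sum_sub_distrib, sum_b2i_eq, sum_b2i_eq]
        simp [b2i, hab.symm, hCb.symm]
      · rcases eq_or_ne k b with rfl | hkb
        · simp [b2i, hab.symm, hCb.symm]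
        rcases eq_or_ne k a with rfl | hka
        · rw [ea, eb, hX, ← hXdef, pr_lt p _ _ (by omega) hXN, pr_gt p _ _ (by omega) hXN]
          simp only [b2i, hCa.symm, if_false, if_true]
          split_ifs <;> omega
        · rw [eb, eo k hka hkb, hX, ← mul_sub,
            ← neg_sub (pr p (π k).val (X + 1)),
            pr_tgt p X _ hXN (π k).isLt (ne_a k hka) (ne_b k hkb)]
          by_cases hk : k = C
          · subst hk; simp [b2i, hka, hC']
          · simp [b2i, hka, hk, (eqC k).not.2 hk]
    · rw [Finset.sum_congr rfl (g := fun k =>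
        b2i (k = a) * (b2i (a < q) * b2i (q = C)) - b2i (k = b) * (b2i (b < q) * b2i (q = C)))
        fun k _ => ?_]
      · rw [Finset.sum_sub_distrib, sum_b2i_eq, sum_b2i_eq]
        by_cases hq : q = C
        · subst hq; simp [b2i, hqa, hqb]
        · simp [b2i, hq, hqa, hqb]
      · rw [eo q hqa hqb]
        rcases eq_or_ne k a with rfl | hka
        · rw [ea, ← hXdef, ← mul_sub,
            pr_src p X _ hXN (π q).isLt (ne_a q hqa) (ne_b q hqb)]
          by_cases hq : q = C
          · subst hq; simp [b2i, hab, hC']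
          · simp [b2i, hq, (eqC q).not.2 hq]
        rcases eq_or_ne k b with rfl | hkb
        · rw [eb, hX, ← mul_sub, ← neg_sub (pr p (X + 1) (π q).val),
            pr_src p X _ hXN (π q).isLt (ne_a q hqa) (ne_b q hqb)]
          by_cases hq : q = C
          · subst hq; simp [b2i, hab.symm, hC']
          · simp [b2i, hq, (eqC q).not.2 hq]
        · rw [eo k hka hkb, sub_self]
          simp [b2i, hka, hkb]
  have habs : ∀ q, |pot p π q - pot p π' q| =
      b2i (q = a) * |b2i (b < a) - b2i (C < a)| + b2i (q = b) * |b2i (C < b) - b2i (a < b)| +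
        b2i (q = C) * |b2i (a < C) - b2i (b < C)| := by
    intro q
    rw [abs_sub_comm, d q]
    rcases eq_or_ne q a with rfl | h1
    · simp [b2i, hab, hCa.symm]
    rcases eq_or_ne q b with rfl | h2
    · simp [b2i, hab.symm, hCb.symm]
    by_cases h3 : q = C
    · subst h3; simp [b2i, h1, h2]
    · simp [b2i, h1, h2, h3]
  simp only [habs, Finset.sum_add_distrib, sum_b2i_eq]
  have n1 : a.val ≠ b.val := fun e => hab (Fin.ext e)
  have n2 : C.val ≠ a.val := fun e => hCa (Fin.ext e)
  have n3 : C.val ≠ b.val := fun e => hCb (Fin.ext e)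
  simp only [b2i, Fin.lt_def]
  split_ifs <;> simp <;> omega

/-- Different orders of the same shape differ at two neighbours in one block. -/
theorem exists_adjacent (p g : ℕ) (π ρ : Equiv.Perm (Fin (2 * p + 1))) (hπ : Star p g π)
    (hρ : Star p g ρ) (hne : π ≠ ρ) :
    ∃ a b, (π b).val = (π a).val + 1 ∧ ρ b < ρ a ∧ (g ≤ a.val ↔ g ≤ b.val) := by
  by_contra hcon
  push Not at hcon
  apply hne
  have hmono : StrictMono fun x => ρ (π.symm x) := by
    rw [Fin.strictMono_iff_lt_succ]
    intro i
    set a := π.symm i.castSucc with ha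
    set b := π.symm i.succ with hb
    have hv : (π b).val = (π a).val + 1 := by simp [ha, hb]
    by_contra hlt
    have hle : ρ b ≤ ρ a := not_lt.1 hlt
    have hne' : ρ b ≠ ρ a := fun e => by
      rw [ρ.injective e] at hv; omega
    have hbad := hcon a b hv (lt_of_le_of_ne hle hne')
    have p1 := hπ a
    have p2 := hπ b
    have r1 := hρ a
    have r2 := hρ b
    have : (ρ b).val ≤ (ρ a).val := hle
    omega
  have hid : (fun x => ρ (π.symm x)) = id :=
    (hmono.range_inj strictMono_id).1 (by
      rw [Set.range_id]; exact (π.symm.trans ρ).surjective.range_eq)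
  ext k
  have := congrFun hid (π k)
  simp only [Equiv.symm_apply_apply, id] at this
  rw [this]

theorem inv_swap (p g : ℕ) (π ρ : Equiv.Perm (Fin (2 * p + 1))) (a b : Fin (2 * p + 1))
    (hX : (π b).val = (π a).val + 1) (hρ : ρ b < ρ a) (hg : g ≤ a.val ↔ g ≤ b.val) :
    inv g ((Equiv.swap a b).trans π) ρ = inv g π ρ - 1 := by
  set π' := (Equiv.swap a b).trans π with hπ'
  have hab : a ≠ b := fun e => by rw [e] at hX; omega
  have ea : π' a = π b := by simp [hπ']
  have eb : π' b = π a := by simp [hπ']
  have eo : ∀ k, k ≠ a → k ≠ b → π' k = π k := fun k h1 h2 => by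
    simp [hπ', Equiv.swap_apply_of_ne_of_ne h1 h2]
  have hlt : π a < π b := by rw [Fin.lt_def]; omega
  have ne_a : ∀ k, k ≠ a → (π k).val ≠ (π a).val := fun k h e => h (π.injective (Fin.ext e))
  have ne_b : ∀ k, k ≠ b → (π k).val ≠ (π b).val := fun k h e => h (π.injective (Fin.ext e))
  have key : ∀ r q, b2i (r < q ∧ (g ≤ r.val ↔ g ≤ q.val) ∧ ob π' r q ≠ ob ρ r q) =
      b2i (r < q ∧ (g ≤ r.val ↔ g ≤ q.val) ∧ ob π r q ≠ ob ρ r q) -
        (b2i (r = min a b) * b2i (q = max a b)) := by
    intro r q
    by_cases hp : r = min a b ∧ q = max a b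
    · obtain ⟨rfl, rfl⟩ := hp
      rcases lt_or_gt_of_ne hab with h | h
      · simp [min_eq_left h.le, max_eq_right h.le, b2i, h, hg, ob, ea, eb, hlt, hlt.not_gt,
          hρ, hρ.not_gt]
      · simp [min_eq_right h.le, max_eq_left h.le, b2i, h, hg, ob, ea, eb, hlt, hlt.not_gt,
          hρ, hρ.not_gt]
    · have h0 : b2i (r = min a b) * b2i (q = max a b) = 0 := by
        simp only [b2i]
        by_cases h1 : r = min a b
        · have : ¬ q = max a b := fun h2 => hp ⟨h1, h2⟩
          simp [this]
        · simp [h1]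
      rw [h0, sub_zero]
      by_cases hrq : r < q
      · have e : ob π' r q = ob π r q := by
          simp only [ob, decide_eq_decide, Fin.lt_def]
          rcases eq_or_ne r a with rfl | h1
          · rcases eq_or_ne q b with rfl | h2
            · exact absurd ⟨(min_eq_left hrq.le).symm, (max_eq_right hrq.le).symm⟩ hp
            · have := ne_a q hrq.ne'
              have := ne_b q h2
              rw [ea, eo q hrq.ne' h2]; omega
          rcases eq_or_ne r b with rfl | h2
          · rcases eq_or_ne q a with rfl | h3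
            · exact absurd ⟨(min_eq_right hrq.le).symm, (max_eq_left hrq.le).symm⟩ hp
            · have := ne_a q h3
              have := ne_b q hrq.ne'
              rw [eb, eo q h3 hrq.ne']; omega
          have := ne_a r h1
          have := ne_b r h2
          rw [eo r h1 h2]
          rcases eq_or_ne q a with rfl | h3
          · rw [ea]; omega
          rcases eq_or_ne q b with rfl | h4
          · rw [eb]; omega
          rw [eo q h3 h4]
        rw [e]
      · simp [b2i, hrq]
  simp only [inv, key, Finset.sum_sub_distrib]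
  congr 1
  simp only [← Finset.mul_sum]
  rw [sum_b2i_eq, Finset.sum_eq_single (max a b) (fun k _ hk => by simp [b2i, hk]) (by simp)]
  simp [b2i]

/-- The potential is Lipschitz for inversions inside the blocks. -/
theorem lip_stmt : LipStmt := by
  intro p g π ρ _ hπ hρ
  suffices H : ∀ n : ℕ, ∀ π : Equiv.Perm (Fin (2 * p + 1)), Star p g π → inv g π ρ ≤ n →
      ∑ q, |pot p π q - pot p ρ q| ≤ inv g π ρ from
    H (inv g π ρ).toNat π hπ (Int.self_le_toNat _)
  intro n
  induction n with
  | zero =>
    intro π hπ h0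
    by_cases he : π = ρ
    · subst he; simpa using inv_nonneg' g π π
    · obtain ⟨a, b, hX, hr, hg⟩ := exists_adjacent p g π ρ hπ hρ he
      have := inv_swap p g π ρ a b hX hr hg
      have := inv_nonneg' g ((Equiv.swap a b).trans π) ρ
      omega
  | succ n ih =>
    intro π hπ hn
    by_cases he : π = ρ
    · subst he; simpa using inv_nonneg' g π π
    · obtain ⟨a, b, hX, hr, hg⟩ := exists_adjacent p g π ρ hπ hρ he
      have hinv := inv_swap p g π ρ a b hX hr hg
      have hπ' : Star p g ((Equiv.swap a b).trans π) := by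
        intro q
        rcases eq_or_ne q a with rfl | h1
        · simp only [Equiv.trans_apply, Equiv.swap_apply_left]; rw [hπ b, hg]
        rcases eq_or_ne q b with rfl | h2
        · simp only [Equiv.trans_apply, Equiv.swap_apply_right]; rw [hπ a, hg]
        simpa [Equiv.swap_apply_of_ne_of_ne h1 h2] using hπ q
      have h1 := ih _ hπ' (by push_cast at hn; omega)
      have h2 := pot_swap p π a b hX
      calc ∑ q, |pot p π q - pot p ρ q|
          ≤ ∑ q, (|pot p π q - pot p ((Equiv.swap a b).trans π) q| +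
              |pot p ((Equiv.swap a b).trans π) q - pot p ρ q|) :=
            Finset.sum_le_sum fun q _ => abs_sub_le _ _ _
        _ = _ + _ := Finset.sum_add_distrib
        _ ≤ 1 + inv g ((Equiv.swap a b).trans π) ρ := add_le_add h2 h1
        _ = inv g π ρ := by omega

end Vale.Agent.P040.Rect
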