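import Vale.Agent.P040.Rect.Defs

/-!
The potential ranges over an interval of length `wid`.
-/

namespace Vale.Agent.P040.Rect

open Finset

/-- Every vertex has exactly `p` cyclic predecessors in the window. -/
theorem card_pred (p : ℕ) (π : Equiv.Perm (Fin (2 * p + 1))) (q : Fin (2 * p + 1)) :
    ((univ : Finset (Fin (2 * p + 1))).filter fun k => Pred p π k q).card = p := by
  have hlt : ∀ k : Fin (2 * p + 1), (π k).val < 2 * p + 1 := fun k => (π k).isLt
  have h : ((univ : Finset (Fin (2 * p + 1))).filter fun k => Pred p π k q).card =
      (Finset.Icc 1 p).card := by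
    refine Finset.card_nbij'
      (fun k => ((π q).val + (2 * p + 1) - (π k).val) % (2 * p + 1))
      (fun d => π.symm ⟨((π q).val + (2 * p + 1) - d) % (2 * p + 1), Nat.mod_lt _ (by omega)⟩)
      ?_ ?_ ?_ ?_
    · intro k hk
      rw [Finset.mem_coe, Finset.mem_filter] at hk
      replace hk : k ≠ q ∧ _ := hk.2
      simp only [Finset.mem_coe, mem_Icc]
      refine ⟨?_, hk.2⟩
      have hne : (π k).val ≠ (π q).val := fun e => hk.1 (π.injective (Fin.ext e))
      have := hlt k
      have := hlt q
      rcases le_or_gt (π k).val (π q).val with hle | hle
      · rw [show (π q).val + (2 * p + 1) - (π k).val = (π q).val - (π k).val + (2 * p + 1) from by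
          omega, Nat.add_mod_right, Nat.mod_eq_of_lt (by omega)]
        omega
      · rw [Nat.mod_eq_of_lt (by omega)]
        omega
    · intro d hd
      simp only [Finset.mem_coe, mem_Icc] at hd
      rw [Finset.mem_coe, Finset.mem_filter]
      have := hlt q
      refine ⟨mem_univ _, fun e => ?_, ?_⟩
      · have e' := congrArg (fun k => (π k).val) e
        simp only [Equiv.apply_symm_apply] at e'
        rcases le_or_gt d (π q).val with hle | hle
        · rw [show (π q).val + (2 * p + 1) - d = (π q).val - d + (2 * p + 1) from by omega,
            Nat.add_mod_right, Nat.mod_eq_of_lt (by omega)] at e'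
          omega
        · rw [Nat.mod_eq_of_lt (by omega)] at e'
          omega
      · simp only [Equiv.apply_symm_apply]
        rcases le_or_gt d (π q).val with hle | hle
        · rw [show (π q).val + (2 * p + 1) - d = (π q).val - d + (2 * p + 1) from by omega,
            Nat.add_mod_right, Nat.mod_eq_of_lt (show (π q).val - d < _ by omega),
            show (π q).val + (2 * p + 1) - ((π q).val - d) = d + (2 * p + 1) from by omega,
            Nat.add_mod_right, Nat.mod_eq_of_lt (by omega)]
          omega
        · rw [Nat.mod_eq_of_lt (show (π q).val + (2 * p + 1) - d < _ by omega),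
            show (π q).val + (2 * p + 1) - ((π q).val + (2 * p + 1) - d) = d from by omega,
            Nat.mod_eq_of_lt (by omega)]
          omega
    · intro k hk
      apply π.injective
      simp only [Equiv.apply_symm_apply]
      apply Fin.ext
      simp only
      have := hlt k
      have := hlt q
      rcases le_or_gt (π k).val (π q).val with hle | hle
      · rw [show (π q).val + (2 * p + 1) - (π k).val = (π q).val - (π k).val + (2 * p + 1) from by
          omega, Nat.add_mod_right, Nat.mod_eq_of_lt (show (π q).val - (π k).val < _ by omega),
          show (π q).val + (2 * p + 1) - ((π q).val - (π k).val) = (π k).val + (2 * p + 1) from by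
          omega, Nat.add_mod_right, Nat.mod_eq_of_lt (hlt k)]
      · rw [Nat.mod_eq_of_lt (show (π q).val + (2 * p + 1) - (π k).val < _ by omega),
          show (π q).val + (2 * p + 1) - ((π q).val + (2 * p + 1) - (π k).val) = (π k).val from by
          omega, Nat.mod_eq_of_lt (hlt k)]
    · intro d hd
      simp only [Finset.mem_coe, mem_Icc] at hd
      simp only [Equiv.apply_symm_apply]
      have := hlt q
      rcases le_or_gt d (π q).val with hle | hle
      · rw [show (π q).val + (2 * p + 1) - d = (π q).val - d + (2 * p + 1) from by omega,
          Nat.add_mod_right, Nat.mod_eq_of_lt (show (π q).val - d < _ by omega),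
          show (π q).val + (2 * p + 1) - ((π q).val - d) = d + (2 * p + 1) from by omega,
          Nat.add_mod_right, Nat.mod_eq_of_lt (by omega)]
      · rw [Nat.mod_eq_of_lt (show (π q).val + (2 * p + 1) - d < _ by omega),
          show (π q).val + (2 * p + 1) - ((π q).val + (2 * p + 1) - d) = d from by omega,
          Nat.mod_eq_of_lt (by omega)]
  rw [h, Nat.card_Icc]
  omega

theorem range_stmt : RangeStmt := by
  intro p π q
  set P := (univ : Finset (Fin (2 * p + 1))).filter fun k => Pred p π k q with hP
  have hcard : P.card = p := card_pred p π q
  have hpot : pot p π q = ((P.filter fun k => k < q).card : ℤ) := by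
    rw [pot, hP, Finset.filter_filter, Finset.card_filter, Nat.cast_sum]
    refine Finset.sum_congr rfl fun k _ => ?_
    simp [b2i, and_comm]
  have h1 : (P.filter fun k => k < q).card ≤ q.val :=
    (Finset.card_le_card fun k hk => by simp only [mem_filter] at hk; exact mem_Iio.2 hk.2).trans_eq
      (Fin.card_Iio q)
  have h2 : (P.filter fun k => ¬k < q).card ≤ (Finset.Ioi q).card :=
    Finset.card_le_card fun k hk => by
      rw [Finset.mem_filter, hP, Finset.mem_filter] at hk
      exact mem_Ioi.2 (lt_of_le_of_ne (not_lt.1 hk.2) (Ne.symm hk.1.2.1))
  have h3 := Finset.card_filter_add_card_filter_not (s := P) (fun k => k < q)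
  have h4 := Finset.card_filter_le P fun k => k < q
  rw [Fin.card_Ioi] at h2
  rw [hcard] at h3 h4
  rw [hpot, wid]
  have := q.isLt
  omega

end Vale.Agent.P040.Rect
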