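import Vale.Agent.P040.Rect.Far

/-!
Vertex classes occupying segments of positions, and sums of predecessor indicators over them.
-/

namespace Vale.Agent.P040.Rect

open Finset

variable {p : ℕ}

/-- The set `X` occupies the positions `[o, o + card X)`. -/
def Seg (π : Equiv.Perm (Fin (2 * p + 1))) (X : Finset (Fin (2 * p + 1))) (o : ℕ) : Prop :=
  o + X.card ≤ 2 * p + 1 ∧ ∀ q, q ∈ X ↔ o ≤ (π q).val ∧ (π q).val < o + X.card

theorem card_pos_lt {N : ℕ} (π : Equiv.Perm (Fin N)) (c : Fin N) :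
    (univ.filter fun k => π k < c).card = c.val := by
  rw [← Fin.card_Iio c]
  exact card_equiv π (by simp)

theorem init_iff {N : ℕ} (π : Equiv.Perm (Fin N)) (U : Finset (Fin N))
    (h : ∀ x ∈ U, ∀ y, y ∉ U → π x < π y) (q : Fin N) : (π q).val < U.card ↔ q ∈ U := by
  constructor
  · intro hlt
    by_contra hq
    have : U ⊆ univ.filter fun k => π k < π q := fun x hx => by simpa using h x hx q hq
    have := card_le_card this
    rw [card_pos_lt] at this
    omega
  · intro hq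
    have : insert q (univ.filter fun k => π k < π q) ⊆ U := fun x hx => by
      rcases mem_insert.1 hx with rfl | hx
      · exact hq
      · by_contra hxU
        exact lt_asymm (h q hq x hxU) (mem_filter.1 hx).2
    have := card_le_card this
    rw [card_insert_of_notMem (by simp), card_pos_lt] at this
    omega

theorem seg_of_init (π : Equiv.Perm (Fin (2 * p + 1))) (U X : Finset (Fin (2 * p + 1)))
    (hd : Disjoint U X) (hU : ∀ x ∈ U, ∀ y, y ∉ U → π x < π y)
    (hV : ∀ x ∈ U ∪ X, ∀ y, y ∉ U ∪ X → π x < π y) : Seg π X U.card := by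
  have hc := card_union_of_disjoint hd
  refine ⟨?_, fun q => ?_⟩
  · rw [← hc]
    simpa using card_le_univ (U ∪ X)
  have h1 := init_iff π U hU q
  have h2 := init_iff π (U ∪ X) hV q
  rw [hc, mem_union] at h2
  constructor
  · intro hq
    exact ⟨not_lt.1 fun h => disjoint_left.1 hd (h1.1 h) hq, h2.2 (Or.inr hq)⟩
  · rintro ⟨ho, hlt⟩
    rcases h2.1 hlt with h | h
    · exact absurd (h1.2 h) (not_lt.2 ho)
    · exact h

theorem seg_sum {π : Equiv.Perm (Fin (2 * p + 1))} {X : Finset (Fin (2 * p + 1))} {o : ℕ}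
    (hX : Seg π X o) (h : ℕ → ℤ) :
    ∑ q ∈ X, h (π q).val = ∑ i ∈ range X.card, h (o + i) := by
  have := hX.1
  refine sum_bij' (fun q _ => (π q).val - o)
    (fun i hi => π.symm ⟨o + i, by rw [mem_range] at hi; omega⟩) ?_ ?_ ?_ ?_ ?_
  · intro q hq; rw [mem_range]; have := (hX.2 q).1 hq; omega
  · intro i hi; rw [hX.2, Equiv.apply_symm_apply]; rw [mem_range] at hi; simp only; omega
  · intro q hq
    have h' := (hX.2 q).1 hq
    rw [Equiv.symm_apply_eq]
    ext
    simp only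
    omega
  · intro i hi; simp
  · intro q hq; have := (hX.2 q).1 hq; congr 1; omega

theorem seg_sum₂ {π : Equiv.Perm (Fin (2 * p + 1))} {X Y : Finset (Fin (2 * p + 1))} {o o' : ℕ}
    (hX : Seg π X o) (hY : Seg π Y o') (h : ℕ → ℕ → ℤ) :
    ∑ k ∈ X, ∑ q ∈ Y, h (π k).val (π q).val =
      ∑ i ∈ range X.card, ∑ j ∈ range Y.card, h (o + i) (o' + j) := by
  rw [← seg_sum hX fun x => ∑ j ∈ range Y.card, h x (o' + j)]
  exact sum_congr rfl fun k _ => seg_sum hY _

/-- Predecessor pairs from `X` to `Y` with increasing index. -/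
def pairS (π : Equiv.Perm (Fin (2 * p + 1))) (X Y : Finset (Fin (2 * p + 1))) : ℤ :=
  ∑ k ∈ X, ∑ q ∈ Y, b2i (k < q ∧ Pred p π k q)

theorem pr_pred (π : Equiv.Perm (Fin (2 * p + 1))) (k q : Fin (2 * p + 1)) :
    b2i (Pred p π k q) = pr p (π k).val (π q).val := by
  simp only [b2i, pr, Pred]
  refine if_congr (and_congr_left fun _ => ?_) rfl rfl
  rw [ne_eq, ne_eq, Fin.val_inj, π.injective.eq_iff]

theorem pairS_gt (π : Equiv.Perm (Fin (2 * p + 1))) {X Y : Finset (Fin (2 * p + 1))}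
    (h : ∀ k ∈ X, ∀ q ∈ Y, q < k) : pairS π X Y = 0 :=
  sum_eq_zero fun k hk => sum_eq_zero fun q hq => by
    simp [b2i, (h k hk q hq).not_gt]

theorem pairS_lt (π : Equiv.Perm (Fin (2 * p + 1))) {X Y : Finset (Fin (2 * p + 1))}
    (h : ∀ k ∈ X, ∀ q ∈ Y, k < q) :
    pairS π X Y = ∑ k ∈ X, ∑ q ∈ Y, pr p (π k).val (π q).val :=
  sum_congr rfl fun k hk => sum_congr rfl fun q hq => by
    rw [← pr_pred]; simp [b2i, h k hk q hq]

theorem pairS_fwd {π : Equiv.Perm (Fin (2 * p + 1))} {X Y : Finset (Fin (2 * p + 1))} {o o' : ℕ}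
    (hX : Seg π X o) (hY : Seg π Y o') (h : ∀ k ∈ X, ∀ q ∈ Y, k < q) (D : ℕ)
    (hD : o' = o + X.card + D) :
    pairS π X Y = (X.card : ℤ) * Y.card - farX p X.card Y.card D := by
  rw [pairS_lt π h, seg_sum₂ hX hY, pr_fwd p o o' _ _ D hD hY.1]

theorem pairS_bwd {π : Equiv.Perm (Fin (2 * p + 1))} {X Y : Finset (Fin (2 * p + 1))} {o o' : ℕ}
    (hX : Seg π X o) (hY : Seg π Y o') (h : ∀ k ∈ Y, ∀ q ∈ X, k < q) (D : ℕ)
    (hD : o' = o + X.card + D) :
    pairS π Y X = farX p X.card Y.card D := by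
  rw [pairS_lt π h, seg_sum₂ hY hX, pr_bwd p o o' _ _ D hD hY.1]

theorem pairS_desc {π : Equiv.Perm (Fin (2 * p + 1))} {X : Finset (Fin (2 * p + 1))} {o : ℕ}
    (hX : Seg π X o) (h : ∀ k ∈ X, ∀ q ∈ X, k < q → π q < π k) :
    pairS π X X = far p X.card := by
  have e : ∀ i j : ℕ, b2i (o + j < o + i) = b2i (j < i) := fun i j => by simp [b2i]
  have e' := seg_sum₂ hX hX fun x y => b2i (y < x) * pr p x y
  simp only [e] at e'
  rw [← pr_desc p o _ hX.1, ← e']
  refine sum_congr rfl fun k hk => sum_congr rfl fun q hq => ?_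
  rw [← pr_pred]
  have hne : k ≠ q → π k ≠ π q := fun hne e => hne (π.injective e)
  rcases lt_trichotomy k q with hl | hl | hl
  · simp [b2i, hl, Fin.lt_def.1 (h k hk q hq hl)]
  · subst hl; simp [b2i]
  · have hlt : ¬ (π q).val < (π k).val := not_lt.2 (Fin.lt_def.1 (h q hq k hk hl)).le
    simp [b2i, hl.not_gt, hlt]

theorem pairS_asc {π : Equiv.Perm (Fin (2 * p + 1))} {X : Finset (Fin (2 * p + 1))} {o : ℕ}
    (hX : Seg π X o) (h : ∀ k ∈ X, ∀ q ∈ X, k < q → π k < π q) :
    2 * pairS π X X = (X.card : ℤ) * (X.card - 1) - 2 * far p X.card := by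
  have e : ∀ i j : ℕ, b2i (o + i < o + j) = b2i (i < j) := fun i j => by simp [b2i]
  have e' := seg_sum₂ hX hX fun x y => b2i (x < y) * pr p x y
  simp only [e] at e'
  rw [← pr_asc p o _ hX.1, ← e']
  congr 1
  refine sum_congr rfl fun k hk => sum_congr rfl fun q hq => ?_
  rw [← pr_pred]
  rcases lt_trichotomy k q with hl | hl | hl
  · simp [b2i, hl, Fin.lt_def.1 (h k hk q hq hl)]
  · subst hl; simp [b2i]
  · have hlt : ¬ (π k).val < (π q).val := not_lt.2 (Fin.lt_def.1 (h q hq k hk hl)).le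
    simp [b2i, hl.not_gt, hlt]

/-- The two directions of pairs between interleaved classes: the interleaving cancels. -/
theorem pairS_mixed {π : Equiv.Perm (Fin (2 * p + 1))} {X Y : Finset (Fin (2 * p + 1))} {o o' : ℕ}
    (hX : Seg π X o) (hY : Seg π Y o') (hd : Disjoint X Y) (D : ℕ) (hD : o' = o + X.card + D) :
    pairS π Y X - pairS π X Y = farX p X.card Y.card D - ∑ u ∈ X, ∑ v ∈ Y, b2i (u < v) := by
  rw [← pr_bwd p o o' _ _ D hD hY.1, ← seg_sum₂ hY hX, sum_comm (s := Y) (t := X), pairS, pairS,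
    sum_comm (s := Y) (t := X)]
  simp only [← sum_sub_distrib]
  refine sum_congr rfl fun u hu => sum_congr rfl fun v hv => ?_
  have hne : u ≠ v := fun e => disjoint_left.1 hd hu (e ▸ hv)
  have hpos : (π u).val ≠ (π v).val := fun e => hne (π.injective (Fin.ext e))
  have hu' := (π u).isLt
  have hv' := (π v).isLt
  have anti : pr p (π u).val (π v).val + pr p (π v).val (π u).val = 1 := by
    rcases lt_or_gt_of_ne hpos with h | h
    · rw [pr_lt p _ _ h hv', pr_gt p _ _ h hv']; ring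
    · rw [pr_gt p _ _ h hu', pr_lt p _ _ h hu']; ring
  rw [← pr_pred, ← pr_pred] at anti
  rw [← pr_pred]
  rcases lt_or_gt_of_ne hne with h | h
  · simp only [b2i, h, h.not_gt, true_and, false_and, if_true, if_false] at anti ⊢
    omega
  · simp only [b2i, h, h.not_gt, true_and, false_and, if_false] at anti ⊢

theorem pot_sum (π : Equiv.Perm (Fin (2 * p + 1))) (Y : Finset (Fin (2 * p + 1))) :
    ∑ q ∈ Y, pot p π q = pairS π univ Y := by
  rw [pairS, sum_comm]; rfl

end Vale.Agent.P040.Rect
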