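import Vale.Agent.P040.Rect.Potential
import Vale.Agent.P040.Plumbing

/-!
Sorted stars: for chosen sides, reordering every block as the sides prescribe costs at most the
forced crossings.
-/

namespace Vale.Agent.P040.Rect

open Finset Vale.Agent.P040

/-- Key of a vertex: block, then class, then place in the class. -/
def lexKey (N blk cls w : ℕ) : ℕ := blk * (3 * N) + cls * N + w

/-- Key of the first sorted star: `[0 desc] [middle] [1 asc]` on the right, `[0 desc] [1 asc]` on
the left. -/
def keyFst (p a b : ℕ) (σ : Fin (2 * p + 1) → Bool) (π : Equiv.Perm (Fin (2 * p + 1)))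
    (q : Fin (2 * p + 1)) : ℕ :=
  lexKey (2 * p + 1) (if a ≤ q.val then 0 else 1)
    (if a ≤ q.val ∧ q.val < b then 1 else if σ q then 2 else 0)
    (if a ≤ q.val ∧ q.val < b then (π q).val else if σ q then q.val else 2 * p - q.val)

/-- Key of the second sorted star: `[0 asc] [1 desc]` on the right, `[0 asc] [middle] [1 desc]` on
the left. -/
def keySnd (p a b : ℕ) (σ : Fin (2 * p + 1) → Bool) (π : Equiv.Perm (Fin (2 * p + 1)))
    (q : Fin (2 * p + 1)) : ℕ :=
  lexKey (2 * p + 1) (if b ≤ q.val then 0 else 1)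
    (if a ≤ q.val ∧ q.val < b then 1 else if σ q then 2 else 0)
    (if a ≤ q.val ∧ q.val < b then (π q).val else if σ q then 2 * p - q.val else q.val)

theorem lexKey_inj {N b₁ c₁ w₁ b₂ c₂ w₂ : ℕ} (hb₁ : b₁ ≤ 1) (hc₁ : c₁ ≤ 2) (hw₁ : w₁ < N)
    (hb₂ : b₂ ≤ 1) (hc₂ : c₂ ≤ 2) (hw₂ : w₂ < N)
    (h : lexKey N b₁ c₁ w₁ = lexKey N b₂ c₂ w₂) : b₁ = b₂ ∧ c₁ = c₂ ∧ w₁ = w₂ := by
  unfold lexKey at h
  interval_cases b₁ <;> interval_cases b₂ <;> interval_cases c₁ <;> interval_cases c₂ <;> omega

theorem lexKey_lt_blk {N c₁ w₁ c₂ w₂ : ℕ} (hc₁ : c₁ ≤ 2) (hw₁ : w₁ < N) :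
    lexKey N 0 c₁ w₁ < lexKey N 1 c₂ w₂ := by
  unfold lexKey
  interval_cases c₁ <;> omega

/-- The permutation that sorts by a key. -/
noncomputable def sortBy {N : ℕ} (key : Fin N → ℕ) : Equiv.Perm (Fin N) :=
  (Tuple.sort fun q => (key q : ℝ)).symm

theorem sortBy_lt {N : ℕ} {key : Fin N → ℕ} (hk : Function.Injective key) (r q : Fin N) :
    sortBy key r < sortBy key q ↔ key r < key q := by
  refine (symm_sort_lt _ (fun x y h => hk (by simpa using h)) r q).trans ?_
  simp

theorem star_sortBy {p g : ℕ} {key : Fin (2 * p + 1) → ℕ} (hg : g ≤ 2 * p + 1)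
    (hk : Function.Injective key)
    (h : ∀ l r : Fin (2 * p + 1), l.val < g → g ≤ r.val → key r < key l) :
    Star p g (sortBy key) := by
  have hs : IsStar g (sortBy key : Fin (2 * p + 1) → Fin (2 * p + 1)) :=
    ⟨hg, (sortBy key).injective, fun l r hl hr => (sortBy_lt hk r l).2 (h l r hl hr)⟩
  have he : toPerm (sortBy key : Fin (2 * p + 1) → Fin (2 * p + 1)) = sortBy key :=
    Equiv.ext (toPerm_apply (sortBy key).injective)
  exact he ▸ star_toPerm hs

theorem keyFst_inj {p a b : ℕ} {σ : Fin (2 * p + 1) → Bool}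
    {π : Equiv.Perm (Fin (2 * p + 1))} : Function.Injective (keyFst p a b σ π) := by
  intro r q h
  have := r.isLt
  have := q.isLt
  have := (π r).isLt
  have := (π q).isLt
  obtain ⟨h1, h2, h3⟩ := lexKey_inj (by split_ifs <;> omega) (by split_ifs <;> omega)
    (by split_ifs <;> omega) (by split_ifs <;> omega) (by split_ifs <;> omega)
    (by split_ifs <;> omega) h
  by_cases hr : a ≤ r.val ∧ r.val < b
  · by_cases hq : a ≤ q.val ∧ q.val < b
    · rw [if_pos hr, if_pos hq] at h3
      exact π.injective (Fin.ext h3)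
    · rw [if_pos hr, if_neg hq] at h2
      split_ifs at h2 <;> omega
  · by_cases hq : a ≤ q.val ∧ q.val < b
    · rw [if_neg hr, if_pos hq] at h2
      split_ifs at h2 <;> omega
    · rw [if_neg hr, if_neg hq] at h2 h3
      refine Fin.ext ?_
      split_ifs at h2 h3 <;> omega

theorem keySnd_inj {p a b : ℕ} {σ : Fin (2 * p + 1) → Bool}
    {π : Equiv.Perm (Fin (2 * p + 1))} : Function.Injective (keySnd p a b σ π) := by
  intro r q h
  have := r.isLt
  have := q.isLt
  have := (π r).isLt
  have := (π q).isLt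
  obtain ⟨h1, h2, h3⟩ := lexKey_inj (by split_ifs <;> omega) (by split_ifs <;> omega)
    (by split_ifs <;> omega) (by split_ifs <;> omega) (by split_ifs <;> omega)
    (by split_ifs <;> omega) h
  by_cases hr : a ≤ r.val ∧ r.val < b
  · by_cases hq : a ≤ q.val ∧ q.val < b
    · rw [if_pos hr, if_pos hq] at h3
      exact π.injective (Fin.ext h3)
    · rw [if_pos hr, if_neg hq] at h2
      split_ifs at h2 <;> omega
  · by_cases hq : a ≤ q.val ∧ q.val < b
    · rw [if_neg hr, if_pos hq] at h2
      split_ifs at h2 <;> omega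
    · rw [if_neg hr, if_neg hq] at h2 h3
      refine Fin.ext ?_
      split_ifs at h2 h3 <;> omega

theorem ob_sortBy {N : ℕ} {key : Fin N → ℕ} (hk : Function.Injective key) (r q : Fin N) :
    ob (sortBy key) r q = decide (key r < key q) := by
  rw [ob, decide_eq_decide]
  exact sortBy_lt hk r q

theorem ob_fst {p a b : ℕ} {σ : Fin (2 * p + 1) → Bool} {π : Equiv.Perm (Fin (2 * p + 1))}
    {r q : Fin (2 * p + 1)} (hab : a ≤ b) (hrq : r.val < q.val)
    (h : q.val < a ∨ (a ≤ r.val ∧ b ≤ q.val)) :
    ob (sortBy (keyFst p a b σ π)) r q = σ q := by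
  rw [ob_sortBy keyFst_inj]
  have := q.isLt
  have := (π r).isLt
  have := (π q).isLt
  cases hs : σ q <;> cases ht : σ r <;> simp only [keyFst, lexKey, hs, ht, Bool.false_eq_true,
    if_false, if_true, decide_eq_true_eq, decide_eq_false_iff_not] <;>
    split_ifs <;> omega

theorem ob_snd {p a b : ℕ} {σ : Fin (2 * p + 1) → Bool} {π : Equiv.Perm (Fin (2 * p + 1))}
    {r q : Fin (2 * p + 1)} (hab : a ≤ b) (hrq : r.val < q.val)
    (h : b ≤ r.val ∨ (r.val < a ∧ q.val < b)) :
    ob (sortBy (keySnd p a b σ π)) r q = !σ r := by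
  rw [ob_sortBy keySnd_inj]
  have := q.isLt
  have := (π r).isLt
  have := (π q).isLt
  cases hs : σ q <;> cases ht : σ r <;> simp only [keySnd, lexKey, hs, ht, Bool.false_eq_true,
    if_false, if_true, Bool.not_false, Bool.not_true, decide_eq_true_eq,
    decide_eq_false_iff_not] <;>
    split_ifs <;> omega

theorem ob_mid {p a b : ℕ} {σ : Fin (2 * p + 1) → Bool} {π : Equiv.Perm (Fin (2 * p + 1))}
    {r q : Fin (2 * p + 1)} (hrq : r.val < q.val) (hr : a ≤ r.val) (hq : q.val < b) :
    ob (sortBy (keyFst p a b σ π)) r q = ob π r q ∧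
      ob (sortBy (keySnd p a b σ π)) r q = ob π r q := by
  have h1 : a ≤ r.val ∧ r.val < b := ⟨hr, hrq.trans hq⟩
  have h2 : a ≤ q.val ∧ q.val < b := ⟨hr.trans hrq.le, hq⟩
  rw [ob_sortBy keyFst_inj, ob_sortBy keySnd_inj, ob, keyFst, keyFst, keySnd, keySnd, if_pos h1,
    if_pos h2, if_pos h1, if_pos h2, if_pos h1.1, if_pos h2.1, if_neg h1.2.not_ge,
    if_neg h2.2.not_ge, decide_eq_decide, decide_eq_decide, Fin.lt_def]
  simp [lexKey, h1.1, h1.2, h2.1, h2.2]

theorem b2i_of_not {P : Prop} [Decidable P] (h : ¬P) : b2i P = 0 := if_neg h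

theorem b2i_mono {P Q : Prop} [Decidable P] [Decidable Q] (h : P → Q) : b2i P ≤ b2i Q := by
  unfold b2i
  split_ifs with hp hq <;> first | omega | exact absurd (h hp) hq

theorem sort_stmt : SortStmt := by
  intro p a b σ π ρ hab hb hπ hρ
  refine ⟨sortBy (keyFst p a b σ π), sortBy (keySnd p a b σ π), ⟨?_, ?_, ?_, ?_, ?_⟩, ?_⟩
  · refine star_sortBy (hab.trans hb) keyFst_inj fun l r hl hr => ?_
    have := r.isLt
    have := (π r).isLt
    rw [keyFst, keyFst, if_pos hr, if_neg (show ¬a ≤ l.val by omega)]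
    exact lexKey_lt_blk (by split_ifs <;> omega) (by split_ifs <;> omega)
  · refine star_sortBy hb keySnd_inj fun l r hl hr => ?_
    have := r.isLt
    have := (π r).isLt
    rw [keySnd, keySnd, if_pos hr, if_neg (show ¬b ≤ l.val by omega)]
    exact lexKey_lt_blk (by split_ifs <;> omega) (by split_ifs <;> omega)
  · exact fun r q hrq h => ob_fst hab hrq h
  · exact fun r q hrq h => ob_snd hab hrq h
  · exact fun r q hrq hr hq => (ob_mid hrq hr hq).1.trans (ob_mid hrq hr hq).2.symm
  simp only [inv, cost, ← Finset.sum_add_distrib]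
  refine Finset.sum_le_sum fun r _ => Finset.sum_le_sum fun q _ => ?_
  by_cases hrq : r < q
  swap
  · simp [b2i, hrq]
  have hrq' : r.val < q.val := hrq
  simp only [hrq, if_true, true_and]
  by_cases hout : q.val < a ∨ b ≤ r.val
  · have e : pairCost a b r.val q.val (σ r) (σ q) (ob π r q) (ob ρ r q) =
        b2i (σ q ≠ ob π r q) + b2i (σ r ≠ !ob ρ r q) := by
      unfold pairCost
      split_ifs <;> first | rfl | omega
    rw [e, ob_fst hab hrq' (by omega), ob_snd hab hrq' (by omega), b2i_of_not (P := r.val < a ∧ _)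
      (fun h => by omega), add_zero]
    exact add_le_add (b2i_mono fun h => Ne.symm h.2)
      (b2i_mono fun h => by have h' := h.2; revert h'; cases σ r <;> cases ob ρ r q <;> decide)
  push Not at hout
  by_cases hr : r.val < a
  · by_cases hq : q.val < b
    · have e : pairCost a b r.val q.val (σ r) (σ q) (ob π r q) (ob ρ r q) =
          b2i (σ r ≠ !ob ρ r q) := by
        unfold pairCost
        split_ifs <;> first | rfl | omega
      rw [e, ob_snd hab hrq' (by omega), b2i_of_not (fun h => by omega),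
        b2i_of_not (P := r.val < a ∧ _) (fun h => by omega), zero_add, add_zero]
      exact b2i_mono fun h => by
        have h' := h.2; revert h'; cases σ r <;> cases ob ρ r q <;> decide
    · have e : pairCost a b r.val q.val (σ r) (σ q) (ob π r q) (ob ρ r q) =
          b2i (σ q = σ r) := by
        unfold pairCost
        split_ifs <;> first | rfl | omega
      rw [e, b2i_of_not (fun h => by omega), b2i_of_not (fun h => by omega), zero_add, zero_add]
      exact b2i_mono fun h => h.2.2
  · by_cases hq : q.val < b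
    · obtain ⟨e1, e2⟩ := ob_mid (σ := σ) (π := π) hrq' (not_lt.1 hr) hq
      have e : pairCost a b r.val q.val (σ r) (σ q) (ob π r q) (ob ρ r q) =
          b2i (ob π r q ≠ ob ρ r q) := by
        unfold pairCost
        split_ifs <;> first | rfl | omega
      rw [e, e1, e2, b2i_of_not (fun h => h.2 rfl), b2i_of_not (P := r.val < a ∧ _) (fun h => by omega),
        zero_add, add_zero]
      exact b2i_mono fun h => Ne.symm h.2
    · have e : pairCost a b r.val q.val (σ r) (σ q) (ob π r q) (ob ρ r q) =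
          b2i (σ q ≠ ob π r q) := by
        unfold pairCost
        split_ifs <;> first | rfl | omega
      rw [e, ob_fst hab hrq' (by omega)]
      conv_lhs => arg 1; arg 2; rw [b2i_of_not (fun h => by omega)]
      rw [b2i_of_not (P := r.val < a ∧ _) (fun h => by omega), add_zero, add_zero]
      exact b2i_mono fun h => Ne.symm h.2

end Vale.Agent.P040.Rect
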