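import Vale.Agent.P040.Rect.Seg

/-!
The bound for sorted stars.

The first star puts the classes in the order `R₀ | M | R₁ | L₀ | L₁`, the second one in the order
`R₀ | R₁ | L₀ | M | L₁`; the index is increasing or decreasing inside each class other than `M`.
-/

namespace Vale.Agent.P040.Rect

open Finset

variable {p a b : ℕ} {σ : Fin (2 * p + 1) → Bool} {π ρ : Equiv.Perm (Fin (2 * p + 1))}

/-- The left vertices of side `s`. -/
def clL (a : ℕ) (σ : Fin (2 * p + 1) → Bool) (s : Bool) : Finset (Fin (2 * p + 1)) :=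
  univ.filter fun q => q.val < a ∧ σ q = s

/-- The middle vertices. -/
def clM (p a b : ℕ) : Finset (Fin (2 * p + 1)) := univ.filter fun q => a ≤ q.val ∧ q.val < b

/-- The right vertices of side `s`. -/
def clR (b : ℕ) (σ : Fin (2 * p + 1) → Bool) (s : Bool) : Finset (Fin (2 * p + 1)) :=
  univ.filter fun q => b ≤ q.val ∧ σ q = s

theorem mem_clL {s : Bool} {q : Fin (2 * p + 1)} :
    q ∈ clL a σ s ↔ q.val < a ∧ σ q = s := by simp [clL]

theorem mem_clM {q : Fin (2 * p + 1)} : q ∈ clM p a b ↔ a ≤ q.val ∧ q.val < b := by simp [clM]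

theorem mem_clR {s : Bool} {q : Fin (2 * p + 1)} :
    q ∈ clR b σ s ↔ b ≤ q.val ∧ σ q = s := by simp [clR]

theorem sum_split5 (hab : a ≤ b) (f : Fin (2 * p + 1) → ℤ) :
    ∑ q, f q = ∑ q ∈ clR b σ false, f q + ∑ q ∈ clM p a b, f q + ∑ q ∈ clR b σ true, f q +
      ∑ q ∈ clL a σ false, f q + ∑ q ∈ clL a σ true, f q := by
  simp only [clL, clM, clR, sum_filter, ← sum_add_distrib]
  refine sum_congr rfl fun q _ => ?_
  cases σ q <;>
    simp only [Bool.false_eq_true, Bool.true_eq_false, and_false, and_true, if_false] <;>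
    split_ifs <;> omega

theorem sum_fin_lt {N : ℕ} (c : ℕ) (hc : c ≤ N) (f : ℕ → ℤ) :
    ∑ q : Fin N, (if q.val < c then f q.val else 0) = ∑ i ∈ range c, f i := by
  rw [Fin.sum_univ_eq_sum_range fun i => if i < c then f i else 0, ← sum_filter]
  exact sum_congr (by ext i; simp only [mem_filter, mem_range]; omega) fun _ _ => rfl

theorem sum_clM (hab : a ≤ b) (hb : b ≤ 2 * p + 1) (f : ℕ → ℤ) :
    ∑ q ∈ clM p a b, f q.val = ∑ i ∈ range b, f i - ∑ i ∈ range a, f i := by
  rw [← sum_fin_lt b hb, ← sum_fin_lt a (hab.trans hb), clM, sum_filter, ← sum_sub_distrib]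
  refine sum_congr rfl fun q _ => ?_
  split_ifs <;> omega

theorem card_clM (hab : a ≤ b) (hb : b ≤ 2 * p + 1) : (clM p a b).card = b - a := by
  have h := sum_clM (p := p) hab hb fun _ => 1
  simp only [sum_const, card_range, nsmul_eq_mul, mul_one] at h
  omega

theorem card_classes (hab : a ≤ b) (σ : Fin (2 * p + 1) → Bool) :
    (clR b σ false).card + (clM p a b).card + (clR b σ true).card + (clL a σ false).card +
      (clL a σ true).card = 2 * p + 1 := by
  have h := sum_split5 (σ := σ) hab fun _ => 1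
  simp only [sum_const, nsmul_eq_mul, mul_one, card_univ, Fintype.card_fin] at h
  omega

theorem card_clL (hb : a ≤ 2 * p + 1) (σ : Fin (2 * p + 1) → Bool) :
    (clL a σ false).card + (clL a σ true).card = a := by
  have h : ∑ q ∈ clL a σ false, (1 : ℤ) + ∑ q ∈ clL a σ true, (1 : ℤ) = ∑ i ∈ range a, (1 : ℤ) := by
    rw [← sum_fin_lt a hb, clL, clL, sum_filter, sum_filter, ← sum_add_distrib]
    refine sum_congr rfl fun q _ => ?_
    cases σ q <;> simp
  simp only [sum_const, card_range, nsmul_eq_mul, mul_one] at h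
  omega

theorem of_ob {N : ℕ} {f : Equiv.Perm (Fin N)} {r q : Fin N} (hne : r ≠ q) {s : Bool}
    (h : ob f r q = s) : if s then f r < f q else f q < f r := by
  have hf : f r ≠ f q := fun e => hne (f.injective e)
  subst h
  simp only [ob]
  by_cases hl : f r < f q
  · simp [hl]
  · simpa [hl] using lt_of_le_of_ne (not_lt.1 hl) hf.symm

/-- The positions of the classes in the first star. -/
theorem segs_first (hab : a ≤ b) (hπ : Star p a π)
    (h : ∀ r q : Fin (2 * p + 1), r < q → (q.val < a ∨ (a ≤ r.val ∧ b ≤ q.val)) →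
      ob π r q = σ q) :
    Seg π (clR b σ false) 0 ∧
    Seg π (clM p a b) (clR b σ false).card ∧
    Seg π (clR b σ true) ((clR b σ false).card + (clM p a b).card) ∧
    Seg π (clL a σ false)
      ((clR b σ false).card + (clM p a b).card + (clR b σ true).card) ∧
    Seg π (clL a σ true) ((clR b σ false).card + (clM p a b).card + (clR b σ true).card +
      (clL a σ false).card) := by
  have blk : ∀ x y : Fin (2 * p + 1), a ≤ x.val → y.val < a → π x < π y := fun x y hx hy => by
    have := (hπ x).2 hx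
    have : ¬ (π y).val < 2 * p + 1 - a := fun h' => by have := (hπ y).1 h'; omega
    rw [Fin.lt_def]; omega
  have R0f : ∀ x y : Fin (2 * p + 1), x ∈ clR b σ false → y ∉ clR b σ false → π x < π y :=
      fun x y hx hy => by
    rw [mem_clR] at hx
    rw [mem_clR] at hy
    by_cases hy' : y.val < a
    · exact blk x y (by omega) hy'
    rcases lt_trichotomy x y with hl | hl | hl
    · have hs : σ y = true := by
        cases hc : σ y
        · exact absurd ⟨by rw [Fin.lt_def] at hl; omega, hc⟩ hy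
        · rfl
      simpa [hs] using of_ob hl.ne (h x y hl (Or.inr ⟨by omega, by rw [Fin.lt_def] at hl; omega⟩))
    · exact absurd (hl ▸ hx) hy
    · simpa [hx.2] using of_ob hl.ne (h y x hl (Or.inr ⟨by omega, hx.1⟩))
  have Mf : ∀ x y : Fin (2 * p + 1), x ∈ clM p a b → y ∉ clR b σ false ∪ clM p a b →
      π x < π y := fun x y hx hy => by
    rw [mem_clM] at hx
    simp only [mem_union, mem_clR, mem_clM, not_or] at hy
    by_cases hy' : y.val < a
    · exact blk x y (by omega) hy'
    have hl : x < y := by rw [Fin.lt_def]; omega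
    have hs : σ y = true := by
      cases hc : σ y
      · exact absurd ⟨by omega, hc⟩ hy.1
      · rfl
    simpa [hs] using of_ob hl.ne (h x y hl (Or.inr ⟨hx.1, by omega⟩))
  have U3 : ∀ x ∈ clR b σ false ∪ clM p a b ∪ clR b σ true,
      ∀ y, y ∉ clR b σ false ∪ clM p a b ∪ clR b σ true → π x < π y := fun x hx y hy => by
    simp only [mem_union, mem_clR, mem_clM, not_or] at hx hy
    refine blk x y (by omega) ?_
    cases hc : σ y <;> simp [hc] at hy <;> omega
  have U2 : ∀ x ∈ clR b σ false ∪ clM p a b, ∀ y, y ∉ clR b σ false ∪ clM p a b → π x < π y :=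
      fun x hx y hy => by
    rcases mem_union.1 hx with hx | hx
    · exact R0f x y hx fun h' => hy (mem_union_left _ h')
    · exact Mf x y hx hy
  have L0f : ∀ x y : Fin (2 * p + 1), x ∈ clL a σ false →
      y ∉ clR b σ false ∪ clM p a b ∪ clR b σ true ∪ clL a σ false → π x < π y := fun x y hx hy => by
    rw [mem_clL] at hx
    simp only [mem_union, mem_clR, mem_clM, mem_clL, not_or] at hy
    have hs : σ y = true ∧ y.val < a := by
      cases hc : σ y <;> simp [hc] at hy ⊢ <;> omega
    rcases lt_trichotomy x y with hl | hl | hl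
    · simpa [hs.1] using of_ob hl.ne (h x y hl (Or.inl hs.2))
    · exact absurd (hl ▸ hx.2) (by simp [hs.1])
    · simpa [hx.2] using of_ob hl.ne (h y x hl (Or.inl hx.1))
  have U4 : ∀ x ∈ clR b σ false ∪ clM p a b ∪ clR b σ true ∪ clL a σ false,
      ∀ y, y ∉ clR b σ false ∪ clM p a b ∪ clR b σ true ∪ clL a σ false → π x < π y :=
      fun x hx y hy => by
    rcases mem_union.1 hx with hx | hx
    · exact U3 x hx y fun h' => hy (mem_union_left _ h')
    · exact L0f x y hx hy
  have d1 : Disjoint (clR b σ false) (clM p a b) := disjoint_left.2 fun q h1 h2 => by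
    rw [mem_clR] at h1; rw [mem_clM] at h2; omega
  have d2 : Disjoint (clR b σ false ∪ clM p a b) (clR b σ true) := disjoint_left.2 fun q h1 h2 => by
    simp only [mem_union, mem_clR, mem_clM] at h1 h2
    rcases h1 with h1 | h1
    · simp [h1.2] at h2
    · omega
  have d3 : Disjoint (clR b σ false ∪ clM p a b ∪ clR b σ true) (clL a σ false) :=
      disjoint_left.2 fun q h1 h2 => by
    simp only [mem_union, mem_clR, mem_clM, mem_clL] at h1 h2; omega
  have d4 : Disjoint (clR b σ false ∪ clM p a b ∪ clR b σ true ∪ clL a σ false) (clL a σ true) :=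
      disjoint_left.2 fun q h1 h2 => by
    simp only [mem_union, mem_clR, mem_clM, mem_clL] at h1 h2
    rcases h1 with h1 | h1
    · omega
    · simp [h1.2] at h2
  refine ⟨?_, ?_, ?_, ?_, ?_⟩
  · simpa using seg_of_init π ∅ _ (disjoint_empty_left _) (by simp)
      (by rw [empty_union]; exact fun x hx y hy => R0f x y hx hy)
  · exact seg_of_init π _ _ d1 (fun x hx y hy => R0f x y hx hy) U2
  · rw [← card_union_of_disjoint d1]
    exact seg_of_init π _ _ d2 U2 U3
  · rw [← card_union_of_disjoint d1, ← card_union_of_disjoint d2]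
    exact seg_of_init π _ _ d3 U3 U4
  · rw [← card_union_of_disjoint d1, ← card_union_of_disjoint d2, ← card_union_of_disjoint d3]
    refine seg_of_init π _ _ d4 U4 fun x _ y hy => absurd ?_ hy
    simp only [mem_union, mem_clR, mem_clM, mem_clL]
    cases σ y <;> simp <;> omega

/-- The positions of the classes in the second star. -/
theorem segs_second (hab : a ≤ b) (hρ : Star p b ρ)
    (h : ∀ r q : Fin (2 * p + 1), r < q → (b ≤ r.val ∨ (r.val < a ∧ q.val < b)) →
      ob ρ r q = !σ r) :
    Seg ρ (clR b σ false) 0 ∧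
    Seg ρ (clR b σ true) (clR b σ false).card ∧
    Seg ρ (clL a σ false) ((clR b σ false).card + (clR b σ true).card) ∧
    Seg ρ (clM p a b)
      ((clR b σ false).card + (clR b σ true).card + (clL a σ false).card) ∧
    Seg ρ (clL a σ true) ((clR b σ false).card + (clR b σ true).card + (clL a σ false).card +
      (clM p a b).card) := by
  have blk : ∀ x y : Fin (2 * p + 1), b ≤ x.val → y.val < b → ρ x < ρ y := fun x y hx hy => by
    have := (hρ x).2 hx
    have : ¬ (ρ y).val < 2 * p + 1 - b := fun h' => by have := (hρ y).1 h'; omega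
    rw [Fin.lt_def]; omega
  have R0f : ∀ x y : Fin (2 * p + 1), x ∈ clR b σ false → y ∉ clR b σ false → ρ x < ρ y :=
      fun x y hx hy => by
    rw [mem_clR] at hx
    rw [mem_clR] at hy
    by_cases hy' : y.val < b
    · exact blk x y hx.1 hy'
    rcases lt_trichotomy x y with hl | hl | hl
    · simpa [hx.2] using of_ob hl.ne (h x y hl (Or.inl hx.1))
    · exact absurd (hl ▸ hx) hy
    · have hs : σ y = true := by
        cases hc : σ y
        · exact absurd ⟨by omega, hc⟩ hy
        · rfl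
      simpa [hs] using of_ob hl.ne (h y x hl (Or.inl (by omega)))
  have U2 : ∀ x ∈ clR b σ false ∪ clR b σ true, ∀ y, y ∉ clR b σ false ∪ clR b σ true →
      ρ x < ρ y := fun x hx y hy => by
    simp only [mem_union, mem_clR, not_or] at hx hy
    refine blk x y (by omega) ?_
    cases hc : σ y <;> simp [hc] at hy <;> omega
  have L0f : ∀ x y : Fin (2 * p + 1), x ∈ clL a σ false →
      y ∉ clR b σ false ∪ clR b σ true ∪ clL a σ false → ρ x < ρ y := fun x y hx hy => by
    rw [mem_clL] at hx
    simp only [mem_union, mem_clR, mem_clL, not_or] at hy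
    have hy' : y.val < b ∧ (y.val < a → σ y = true) := by
      cases hc : σ y <;> simp [hc] at hy ⊢ <;> omega
    rcases lt_trichotomy x y with hl | hl | hl
    · simpa [hx.2] using of_ob hl.ne (h x y hl (Or.inr ⟨hx.1, hy'.1⟩))
    · have := hy'.2 (hl ▸ hx.1)
      exact absurd (hl ▸ hx.2) (by simp [this])
    · have hya : y.val < a := by rw [Fin.lt_def] at hl; omega
      simpa [hy'.2 hya] using of_ob hl.ne (h y x hl (Or.inr ⟨hya, by omega⟩))
  have U3 : ∀ x ∈ clR b σ false ∪ clR b σ true ∪ clL a σ false,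
      ∀ y, y ∉ clR b σ false ∪ clR b σ true ∪ clL a σ false → ρ x < ρ y := fun x hx y hy => by
    rcases mem_union.1 hx with hx | hx
    · exact U2 x hx y fun h' => hy (mem_union_left _ h')
    · exact L0f x y hx hy
  have Mf : ∀ x y : Fin (2 * p + 1), x ∈ clM p a b →
      y ∉ clR b σ false ∪ clR b σ true ∪ clL a σ false ∪ clM p a b → ρ x < ρ y := fun x y hx hy => by
    rw [mem_clM] at hx
    simp only [mem_union, mem_clR, mem_clM, mem_clL, not_or] at hy
    have hs : σ y = true ∧ y.val < a := by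
      cases hc : σ y <;> simp [hc] at hy ⊢ <;> omega
    have hl : y < x := by rw [Fin.lt_def]; omega
    simpa [hs.1] using of_ob hl.ne (h y x hl (Or.inr ⟨hs.2, hx.2⟩))
  have U4 : ∀ x ∈ clR b σ false ∪ clR b σ true ∪ clL a σ false ∪ clM p a b,
      ∀ y, y ∉ clR b σ false ∪ clR b σ true ∪ clL a σ false ∪ clM p a b → ρ x < ρ y :=
      fun x hx y hy => by
    rcases mem_union.1 hx with hx | hx
    · exact U3 x hx y fun h' => hy (mem_union_left _ h')
    · exact Mf x y hx hy
  have d1 : Disjoint (clR b σ false) (clR b σ true) := disjoint_left.2 fun q h1 h2 => by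
    rw [mem_clR] at h1 h2; simp [h1.2] at h2
  have d2 : Disjoint (clR b σ false ∪ clR b σ true) (clL a σ false) :=
      disjoint_left.2 fun q h1 h2 => by
    simp only [mem_union, mem_clR, mem_clL] at h1 h2; omega
  have d3 : Disjoint (clR b σ false ∪ clR b σ true ∪ clL a σ false) (clM p a b) :=
      disjoint_left.2 fun q h1 h2 => by
    simp only [mem_union, mem_clR, mem_clM, mem_clL] at h1 h2; omega
  have d4 : Disjoint (clR b σ false ∪ clR b σ true ∪ clL a σ false ∪ clM p a b) (clL a σ true) :=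
      disjoint_left.2 fun q h1 h2 => by
    simp only [mem_union, mem_clR, mem_clM, mem_clL] at h1 h2
    rcases h1 with ((h1 | h1) | h1) | h1
    · omega
    · omega
    · simp [h1.2] at h2
    · omega
  refine ⟨?_, ?_, ?_, ?_, ?_⟩
  · simpa using seg_of_init ρ ∅ _ (disjoint_empty_left _) (by simp)
      (by rw [empty_union]; exact fun x hx y hy => R0f x y hx hy)
  · exact seg_of_init ρ _ _ d1 (fun x hx y hy => R0f x y hx hy) U2
  · rw [← card_union_of_disjoint d1]
    exact seg_of_init ρ _ _ d2 U2 U3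
  · rw [← card_union_of_disjoint d1, ← card_union_of_disjoint d2]
    exact seg_of_init ρ _ _ d3 U3 U4
  · rw [← card_union_of_disjoint d1, ← card_union_of_disjoint d2, ← card_union_of_disjoint d3]
    refine seg_of_init ρ _ _ d4 U4 fun x _ y hy => absurd ?_ hy
    simp only [mem_union, mem_clR, mem_clM, mem_clL]
    cases σ y <;> simp <;> omega

theorem seg_rank {X : Finset (Fin (2 * p + 1))} {o : ℕ} (hX : Seg π X o) {q : Fin (2 * p + 1)}
    (hq : q ∈ X) : ((π q).val : ℤ) = o + ∑ k ∈ X, b2i (π k < π q) := by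
  have h1 := seg_sum hX fun x => b2i (x < (π q).val)
  have h2 : ∀ i : ℕ, b2i (o + i < (π q).val) = b2i (i + 0 < (π q).val - o) := fun i => by
    simp only [b2i]; split_ifs <;> omega
  simp only [h2, sum_lt, ← Fin.lt_def] at h1
  rw [h1]
  have := (hX.2 q).1 hq
  omega

/-- The deficit of one middle vertex. -/
def tent (p u v z : ℕ) : ℤ :=
  ((u + v + z - p : ℕ) : ℤ) - ((u + z - p : ℕ) : ℤ) - ((v + z - p : ℕ) : ℤ) + ((0 + z - p : ℕ) : ℤ)

theorem tent_nonneg (p u v z : ℕ) : 0 ≤ tent p u v z := by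
  simp only [tent]; omega

theorem min_sub_eq (X K B x p : ℕ) (h : X + x = K + p) :
    ((min B (X - K) : ℕ) : ℤ) = B - ((x + B - p : ℕ) : ℤ) + ((x - p : ℕ) : ℤ) := by omega

theorem sub_eq_reflect (x y p : ℕ) (h : x + y = 2 * p) :
    ((x - p : ℕ) : ℤ) = ((y - p : ℕ) : ℤ) - ((y : ℤ) - p) := by omega

theorem mid_bound (p A0 A1 m B0 B1 z : ℕ) (hN : A0 + m + A1 + B0 + B1 = 2 * p + 1) (hz : z < m) :
    |((min B0 (A0 + m + A1 + B0 - (A0 + z + p + 1)) : ℕ) : ℤ) +
        ((min B1 (2 * p + 1 - (A0 + z + p + 1)) : ℕ) : ℤ) -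
      ((B0 : ℤ) - (((B0 + z - p : ℕ) : ℤ) - ((z - p : ℕ) : ℤ)) +
        ((min B1 (m + B1 - (z + p + 1)) : ℕ) : ℤ))| ≤
      tent p A0 B0 z + tent p A1 B1 (m - 1 - z) := by
  obtain ⟨w, rfl⟩ : ∃ w, m = z + 1 + w := ⟨m - (z + 1), by omega⟩
  have e : z + 1 + w - 1 - z = w := by omega
  have i0 := min_sub_eq (A0 + (z + 1 + w) + A1 + B0) (A0 + z + p + 1) B0 (A0 + B1 + z) p (by omega)
  have i1 := min_sub_eq (2 * p + 1) (A0 + z + p + 1) B1 (A0 + z) p (by omega)
  have j1 := min_sub_eq (z + 1 + w + B1) (z + p + 1) B1 (A0 + B0 + A1 + z) p (by omega)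
  have q0 := sub_eq_reflect (A1 + B1 + w) (A0 + B0 + z) p (by omega)
  have q1 := sub_eq_reflect (A1 + w) (A0 + B0 + B1 + z) p (by omega)
  have q2 := sub_eq_reflect (B1 + w) (A0 + B0 + A1 + z) p (by omega)
  have q3 := sub_eq_reflect w (A0 + B0 + A1 + B1 + z) p (by omega)
  have k0 := tent_nonneg p A0 B0 z
  have k1 := tent_nonneg p A1 B1 w
  rw [e, i0, i1, j1, abs_le]
  simp only [tent, Nat.add_zero, Nat.add_comm, Nat.add_left_comm]
    at k0 k1 q0 q1 q2 q3 ⊢
  push_cast at q0 q1 q2 q3
  constructor <;> linarith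

theorem mid_vertex (hab : a ≤ b) (h : Sorted p a b σ π ρ) {q : Fin (2 * p + 1)}
    (hq : q ∈ clM p a b) :
    |pot p π q - pot p ρ q| ≤
      tent p (clR b σ false).card (clL a σ false).card ((π q).val - (clR b σ false).card) +
      tent p (clR b σ true).card (clL a σ true).card
        ((clM p a b).card - 1 - ((π q).val - (clR b σ false).card)) := by
  obtain ⟨hπ, hρ, h1, h2, h3⟩ := h
  obtain ⟨-, s1, -, s3, s4⟩ := segs_first hab hπ h1
  obtain ⟨-, -, t2, t3, t4⟩ := segs_second hab hρ h2
  have hq' := mem_clM.1 hq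
  have hN := card_classes (p := p) hab σ
  set A0 := (clR b σ false).card
  set A1 := (clR b σ true).card
  set m := (clM p a b).card
  set B0 := (clL a σ false).card
  set B1 := (clL a σ true).card
  obtain ⟨z, hz⟩ : ∃ z, (π q).val = A0 + z := ⟨(π q).val - A0, by
    have := (s1.2 q).1 hq; omega⟩
  have hzm : z < m := by have := (s1.2 q).1 hq; omega
  have ord : ∀ k ∈ clM p a b, (π k < π q ↔ ρ k < ρ q) := fun k hk => by
    have hk' := mem_clM.1 hk
    rcases lt_trichotomy k q with hl | hl | hl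
    · simpa [ob] using h3 k q hl hk'.1 hq'.2
    · simp [hl]
    · have h' : π q < π k ↔ ρ q < ρ k := by simpa [ob] using h3 q k hl hq'.1 hk'.2
      have e1 : π k ≠ π q := fun e => hl.ne' (π.injective e)
      have e2 : ρ k ≠ ρ q := fun e => hl.ne' (ρ.injective e)
      constructor
      · exact fun hh => lt_of_le_of_ne (not_lt.1 fun hh' => lt_asymm hh (h'.2 hh')) e2
      · exact fun hh => lt_of_le_of_ne (not_lt.1 fun hh' => lt_asymm hh (h'.1 hh')) e1
  have shift : ∀ k ∈ clM p a b, ((ρ k).val : ℤ) - (A0 + A1 + B0 : ℕ) = (π k).val - (A0 : ℕ) := by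
    intro k hk
    rw [seg_rank s1 hk, seg_rank t3 hk]
    have : ∀ i ∈ clM p a b, b2i (ρ i < ρ k) = b2i (π i < π k) := fun i hi => by
      have hk' := mem_clM.1 hk
      have hi' := mem_clM.1 hi
      rcases lt_trichotomy i k with hl | hl | hl
      · have := h3 i k hl hi'.1 hk'.2
        simp only [ob, decide_eq_decide] at this
        simp only [b2i, this]
      · simp [hl]
      · have := h3 k i hl hk'.1 hi'.2
        simp only [ob, decide_eq_decide] at this
        have e1 : π i ≠ π k := fun e => hl.ne' (π.injective e)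
        have e2 : ρ i ≠ ρ k := fun e => hl.ne' (ρ.injective e)
        simp only [b2i, Fin.lt_def] at this ⊢
        simp only [ne_eq, ← Fin.val_inj] at e1 e2
        split_ifs <;> omega
    rw [sum_congr rfl this]
    ring
  have hzρ : (ρ q).val = A0 + A1 + B0 + z := by
    have := shift q hq
    omega
  have part : ∀ f : Equiv.Perm (Fin (2 * p + 1)), pot p f q =
      ∑ k ∈ clM p a b, b2i (k < q ∧ Pred p f k q) +
      ∑ k ∈ clL a σ false, pr p (f k).val (f q).val +
      ∑ k ∈ clL a σ true, pr p (f k).val (f q).val := by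
    intro f
    rw [pot, sum_split5 (σ := σ) hab]
    have hR : ∀ s : Bool, ∑ k ∈ clR b σ s, b2i (k < q ∧ Pred p f k q) = 0 := fun s =>
      sum_eq_zero fun k hk => by
        have := (mem_clR.1 hk).1
        simp only [b2i, Fin.lt_def]
        exact if_neg fun hh => by omega
    have hL : ∀ s : Bool, ∑ k ∈ clL a σ s, b2i (k < q ∧ Pred p f k q) =
        ∑ k ∈ clL a σ s, pr p (f k).val (f q).val := fun s => sum_congr rfl fun k hk => by
      have := (mem_clL.1 hk).1
      have hkq : k < q := by rw [Fin.lt_def]; omega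
      rw [← pr_pred]; simp [b2i, hkq]
    rw [hR, hR, hL, hL]
    ring
  have hM : ∑ k ∈ clM p a b, b2i (k < q ∧ Pred p π k q) =
      ∑ k ∈ clM p a b, b2i (k < q ∧ Pred p ρ k q) := sum_congr rfl fun k hk => by
    have hs := shift k hk
    have : (π q).val + (2 * p + 1) - (π k).val = (ρ q).val + (2 * p + 1) - (ρ k).val := by
      have := (π k).isLt; have := (ρ k).isLt; omega
    have key : Pred p π k q ↔ Pred p ρ k q := by simp only [Pred, this]
    exact if_congr (and_congr_right fun _ => key) rfl rfl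
  have hI0 : ∑ k ∈ clL a σ false, pr p (π k).val (π q).val =
      ((min B0 (A0 + m + A1 + B0 - (A0 + z + p + 1)) : ℕ) : ℤ) := by
    rw [seg_sum s3 fun x => pr p x (π q).val, ← sum_gt]
    refine sum_congr rfl fun i hi => ?_
    rw [mem_range] at hi
    rw [hz, pr_gt p _ _ (by omega) (by omega)]
  have hI1 : ∑ k ∈ clL a σ true, pr p (π k).val (π q).val =
      ((min B1 (2 * p + 1 - (A0 + z + p + 1)) : ℕ) : ℤ) := by
    rw [seg_sum s4 fun x => pr p x (π q).val, show 2 * p + 1 - (A0 + z + p + 1) =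
      A0 + m + A1 + B0 + B1 - (A0 + z + p + 1) by omega, ← sum_gt]
    refine sum_congr rfl fun i hi => ?_
    rw [mem_range] at hi
    rw [hz, pr_gt p _ _ (by omega) (by omega)]
  have hJ0 : ∑ k ∈ clL a σ false, pr p (ρ k).val (ρ q).val =
      (B0 : ℤ) - (((B0 + z - p : ℕ) : ℤ) - ((z - p : ℕ) : ℤ)) := by
    rw [seg_sum t2 fun x => pr p x (ρ q).val, hzρ,
      show z - p = B0 + z - p - B0 by omega, ← sum_lt]
    have e : ∀ i ∈ range B0, pr p (A0 + A1 + i) (A0 + A1 + B0 + z) =
        1 - b2i (i + p < B0 + z) := fun i hi => by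
      rw [mem_range] at hi
      rw [pr_lt p _ _ (by omega) (by omega)]
      simp only [b2i]
      split_ifs <;> omega
    rw [sum_congr rfl e]
    simp [sum_sub_distrib]
  have hJ1 : ∑ k ∈ clL a σ true, pr p (ρ k).val (ρ q).val =
      ((min B1 (m + B1 - (z + p + 1)) : ℕ) : ℤ) := by
    rw [seg_sum t4 fun x => pr p x (ρ q).val, hzρ, ← sum_gt]
    refine sum_congr rfl fun i hi => ?_
    rw [mem_range] at hi
    rw [pr_gt p _ _ (by omega) (by omega)]
    simp only [b2i]
    split_ifs <;> omega
  have key := mid_bound p A0 A1 m B0 B1 z (by omega) hzm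
  rw [part π, part ρ, hM, hI0, hI1, hJ0, hJ1, hz, show A0 + z - A0 = z by omega]
  rw [show ∀ c x y u v : ℤ, c + x + y - (c + u + v) = x + y - (u + v) from fun _ _ _ _ _ => by ring]
  exact key

theorem sorted_stmt : SortedStmt := by
  intro p a b σ π ρ hab hb hs
  obtain ⟨hπ, hρ, h1, h2, h3⟩ := hs
  obtain ⟨s0, s1, s2, s3, s4⟩ := segs_first hab hπ h1
  obtain ⟨t0, t1, t2, t3, t4⟩ := segs_second hab hρ h2
  have hN := card_classes (p := p) hab σ
  have hA := card_clL (p := p) (hab.trans hb) σ
  have hB := card_clM (p := p) hab hb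
  have hmid := fun q (hq : q ∈ clM p a b) =>
    mid_vertex hab ⟨hπ, hρ, h1, h2, h3⟩ hq
  set A0 := (clR b σ false).card with eA0
  set A1 := (clR b σ true).card with eA1
  set m := (clM p a b).card with em
  set B0 := (clL a σ false).card with eB0
  set B1 := (clL a σ true).card with eB1
  -- orders between and inside the classes
  have RL : ∀ s t : Bool, ∀ k ∈ clR b σ s, ∀ q ∈ clL a σ t, q < k := fun s t k hk q hq => by
    have := (mem_clR.1 hk).1; have := (mem_clL.1 hq).1; rw [Fin.lt_def]; omega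
  have LR : ∀ s t : Bool, ∀ k ∈ clL a σ s, ∀ q ∈ clR b σ t, k < q := fun s t k hk q hq => by
    have := (mem_clL.1 hk).1; have := (mem_clR.1 hq).1; rw [Fin.lt_def]; omega
  have MR : ∀ t : Bool, ∀ k ∈ clM p a b, ∀ q ∈ clR b σ t, k < q := fun t k hk q hq => by
    have := (mem_clM.1 hk).2; have := (mem_clR.1 hq).1; rw [Fin.lt_def]; omega
  have ML : ∀ t : Bool, ∀ k ∈ clM p a b, ∀ q ∈ clL a σ t, q < k := fun t k hk q hq => by
    have := (mem_clM.1 hk).1; have := (mem_clL.1 hq).1; rw [Fin.lt_def]; omega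
  have πL : ∀ s : Bool, ∀ k ∈ clL a σ s, ∀ q ∈ clL a σ s, k < q →
      if s then π k < π q else π q < π k := fun s k _ q hq hl =>
    of_ob hl.ne ((h1 k q hl (Or.inl (mem_clL.1 hq).1)).trans (mem_clL.1 hq).2)
  have πR : ∀ s : Bool, ∀ k ∈ clR b σ s, ∀ q ∈ clR b σ s, k < q →
      if s then π k < π q else π q < π k := fun s k hk q hq hl =>
    of_ob hl.ne ((h1 k q hl (Or.inr ⟨hab.trans (mem_clR.1 hk).1, (mem_clR.1 hq).1⟩)).trans
      (mem_clR.1 hq).2)
  have ρL : ∀ s : Bool, ∀ k ∈ clL a σ s, ∀ q ∈ clL a σ s, k < q →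
      if !s then ρ k < ρ q else ρ q < ρ k := fun s k hk q hq hl =>
    of_ob hl.ne ((h2 k q hl (Or.inr ⟨(mem_clL.1 hk).1,
      lt_of_lt_of_le (mem_clL.1 hq).1 hab⟩)).trans (by rw [(mem_clL.1 hk).2]))
  have ρR : ∀ s : Bool, ∀ k ∈ clR b σ s, ∀ q ∈ clR b σ s, k < q →
      if !s then ρ k < ρ q else ρ q < ρ k := fun s k hk q _ hl =>
    of_ob hl.ne ((h2 k q hl (Or.inl (mem_clR.1 hk).1)).trans (by rw [(mem_clR.1 hk).2]))
  have dL : Disjoint (clL a σ false) (clL a σ true) := disjoint_left.2 fun q u v => by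
    rw [mem_clL] at u v; simp [u.2] at v
  have dR : Disjoint (clR b σ false) (clR b σ true) := disjoint_left.2 fun q u v => by
    rw [mem_clR] at u v; simp [u.2] at v
  -- pairs inside the left block
  have a0 := pairS_desc s3 (fun k hk q hq hl => by simpa using πL false k hk q hq hl)
  have a1 := pairS_asc s4 (fun k hk q hq hl => by simpa using πL true k hk q hq hl)
  have b0 := pairS_asc t2 (fun k hk q hq hl => by simpa using ρL false k hk q hq hl)
  have b1 := pairS_desc t4 (fun k hk q hq hl => by simpa using ρL true k hk q hq hl)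
  have a01 := pairS_mixed s3 s4 dL 0 (by omega)
  have b01 := pairS_mixed t2 t4 dL m (by omega)
  -- pairs inside the outer right block
  have c0 := pairS_desc s0 (fun k hk q hq hl => by simpa using πR false k hk q hq hl)
  have c1 := pairS_asc s2 (fun k hk q hq hl => by simpa using πR true k hk q hq hl)
  have d0 := pairS_asc t0 (fun k hk q hq hl => by simpa using ρR false k hk q hq hl)
  have d1 := pairS_desc t1 (fun k hk q hq hl => by simpa using ρR true k hk q hq hl)
  have c01 := pairS_mixed s0 s2 dR m (by omega)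
  have d01 := pairS_mixed t0 t1 dR 0 (by omega)
  -- pairs from below into the outer right block
  have e0 := pairS_bwd s0 s1 (MR false) 0 (by omega)
  have f0 := pairS_bwd t0 t3 (MR false) (A1 + B0) (by omega)
  have e1 := pairS_fwd s1 s2 (MR true) 0 (by omega)
  have f1 := pairS_bwd t1 t3 (MR true) B0 (by omega)
  have g00 := pairS_bwd s0 s3 (LR false false) (m + A1) (by omega)
  have k00 := pairS_bwd t0 t2 (LR false false) A1 (by omega)
  have g10 := pairS_bwd s0 s4 (LR true false) (m + A1 + B0) (by omega)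
  have k10 := pairS_bwd t0 t4 (LR true false) (m + A1 + B0) (by omega)
  have g01 := pairS_bwd s2 s3 (LR false true) 0 (by omega)
  have k01 := pairS_bwd t1 t2 (LR false true) 0 (by omega)
  have g11 := pairS_bwd s2 s4 (LR true true) B0 (by omega)
  have k11 := pairS_bwd t1 t4 (LR true true) (B0 + m) (by omega)
  -- the potential summed over a class
  have split : ∀ (f : Equiv.Perm (Fin (2 * p + 1))) (Y : Finset (Fin (2 * p + 1))),
      ∑ q ∈ Y, pot p f q = pairS f (clR b σ false) Y + pairS f (clM p a b) Y +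
        pairS f (clR b σ true) Y + pairS f (clL a σ false) Y + pairS f (clL a σ true) Y :=
    fun f Y => by rw [pot_sum, pairS, sum_split5 (σ := σ) hab]; rfl
  have lft : ∀ (f : Equiv.Perm (Fin (2 * p + 1))) (t : Bool), ∑ q ∈ clL a σ t, pot p f q =
      pairS f (clL a σ false) (clL a σ t) + pairS f (clL a σ true) (clL a σ t) := fun f t => by
    rw [split, pairS_gt f (RL false t), pairS_gt f (RL true t), pairS_gt f (ML t)]; ring
  -- the code distance
  have code : codeDist p a b π ρ =
      ∑ q ∈ clR b σ false, |pot p π q - pot p ρ q| + ∑ q ∈ clR b σ true, |pot p π q - pot p ρ q| +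
      ∑ q ∈ clL a σ false, |pot p π q - pot p ρ q| + ∑ q ∈ clL a σ true, |pot p π q - pot p ρ q| +
      (∑ q ∈ clM p a b, wid p q - ∑ q ∈ clM p a b, |pot p π q - pot p ρ q|) := by
    rw [codeDist, sum_split5 (σ := σ) hab, ← sum_sub_distrib]
    have out : ∀ X : Finset (Fin (2 * p + 1)), (∀ q ∈ X, ¬(a ≤ q.val ∧ q.val < b)) →
        ∑ q ∈ X, (if a ≤ q.val ∧ q.val < b then wid p q - |pot p π q - pot p ρ q|
          else |pot p π q - pot p ρ q|) = ∑ q ∈ X, |pot p π q - pot p ρ q| := fun X hX =>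
      sum_congr rfl fun q hq => if_neg (hX q hq)
    rw [out (clR b σ false) fun q hq => by have := (mem_clR.1 hq).1; omega,
      out (clR b σ true) fun q hq => by have := (mem_clR.1 hq).1; omega,
      out (clL a σ false) fun q hq => by have := (mem_clL.1 hq).1; omega,
      out (clL a σ true) fun q hq => by have := (mem_clL.1 hq).1; omega,
      sum_congr rfl fun q (hq : q ∈ clM p a b) => if_pos (mem_clM.1 hq)]
    ring
  have up : ∀ X : Finset (Fin (2 * p + 1)),
      ∑ q ∈ X, pot p π q - ∑ q ∈ X, pot p ρ q ≤ ∑ q ∈ X, |pot p π q - pot p ρ q| ∧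
      ∑ q ∈ X, pot p ρ q - ∑ q ∈ X, pot p π q ≤ ∑ q ∈ X, |pot p π q - pot p ρ q| := fun X => by
    simp only [← sum_sub_distrib]
    exact ⟨sum_le_sum fun q _ => le_abs_self _,
      sum_le_sum fun q _ => abs_sub_comm (pot p π q) _ ▸ le_abs_self _⟩
  have outR0 := (up (clR b σ false)).2
  have outR1 := (up (clR b σ true)).1
  have outL0 := (up (clL a σ false)).2
  have outL1 := (up (clL a σ true)).1
  simp only [lft, split] at outR0 outR1 outL0 outL1
  -- the middle
  have mid : ∑ q ∈ clM p a b, |pot p π q - pot p ρ q| ≤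
      (farX p A0 B0 m - farX p A0 B0 0) + (farX p A1 B1 m - farX p A1 B1 0) := by
    refine (sum_le_sum hmid).trans (le_of_eq ?_)
    rw [seg_sum s1 fun x => tent p A0 B0 (x - A0) + tent p A1 B1 (m - 1 - (x - A0)),
      ← farX_sum_tent, ← farX_sum_tent]
    simp only [Nat.add_sub_cancel_left]
    show ∑ z ∈ range m, (tent p A0 B0 z + tent p A1 B1 (m - 1 - z)) =
      ∑ z ∈ range m, tent p A0 B0 z + ∑ z ∈ range m, tent p A1 B1 z
    rw [sum_add_distrib, sum_range_reflect (fun z => tent p A1 B1 z) m]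
  have width : 2 * ∑ q ∈ clM p a b, wid p q =
      ((b : ℤ) * (b - 1) - 4 * far p b) - ((a : ℤ) * (a - 1) - 4 * far p a) := by
    rw [← two_wid_sum p b hb, ← two_wid_sum p a (hab.trans hb), ← mul_sub]
    congr 1
    exact sum_clM hab hb fun i => ((min i (2 * p - i) : ℕ) : ℤ)
  -- equal sides across the middle
  have eqs : ∑ r, ∑ q, b2i (r < q ∧ r.val < a ∧ b ≤ q.val ∧ σ q = σ r) =
      (B0 : ℤ) * A0 + B1 * A1 := by
    have e : ∀ r q : Fin (2 * p + 1), b2i (r < q ∧ r.val < a ∧ b ≤ q.val ∧ σ q = σ r) =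
        b2i (r.val < a ∧ σ r = false) * b2i (b ≤ q.val ∧ σ q = false) +
        b2i (r.val < a ∧ σ r = true) * b2i (b ≤ q.val ∧ σ q = true) := fun r q => by
      simp only [b2i, Fin.lt_def]
      cases σ r <;> cases σ q <;>
        simp only [Bool.false_eq_true, Bool.true_eq_false, and_false, and_true, if_false] <;>
        split_ifs <;> omega
    simp only [e, sum_add_distrib, ← mul_sum, ← sum_mul]
    simp only [B0, A0, B1, A1, clL, clR, card_filter,
      Nat.cast_sum, Nat.cast_ite, Nat.cast_one, Nat.cast_zero, b2i]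
  -- arithmetic
  have hb' : b = B0 + B1 + m := by omega
  have ha' : a = B0 + B1 := by omega
  have r1 := far_reflect p A0 (A1 + m + B0 + B1) (by omega)
  have r2 := far_reflect p (A0 + B0) (A1 + m + B1) (by omega)
  have r3 := far_reflect p (A0 + m) (A1 + B0 + B1) (by omega)
  have r4 := far_reflect p (A1 + B1) (A0 + m + B0) (by omega)
  have w0 := far_superadd p A0 B0
  have w1 := far_superadd p A1 B1
  have hp : (2 * p + 1 : ℤ) = A0 + m + A1 + B0 + B1 := by omega
  rw [code, eqs]
  generalize ∑ q ∈ clM p a b, wid p q = W at width ⊢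
  rw [hb', ha'] at width
  have h0 : (2 * p + 1 : ℤ) * (2 * p + 1) = (A0 + m + A1 + B0 + B1) * (A0 + m + A1 + B0 + B1) := by
    rw [hp]
  have hx : ∀ x : ℤ, (2 * p + 1 : ℤ) * x = (A0 + m + A1 + B0 + B1) * x := fun x => by rw [hp]
  simp only [← eA0, ← eA1, ← em, ← eB0, ← eB1, farX, far_small, Nat.zero_add, Nat.add_comm,
    Nat.add_left_comm, Nat.add_assoc] at a0 a1 b0 b1 c0 c1 d0 d1 a01 b01 c01 d01 e0 f0 e1 f1
  simp only [← eA0, ← eA1, ← eB0, ← eB1, farX, far_small, Nat.zero_add, Nat.add_comm,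
    Nat.add_left_comm, Nat.add_assoc] at g00 k00 g10 k10 g01 k01 g11 k11 mid
  simp only [Nat.add_comm, Nat.add_left_comm, Nat.add_assoc] at width r1 r2 r3 r4 w0 w1
  push_cast at width r1 r2 r3 r4 e1
  linarith [hx A0, hx A1, hx B0, hx B1, hx m]

end Vale.Agent.P040.Rect
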