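import Vale.Agent.P040.Rect.Geometry
import Vale.Agent.P040.Rect.Count

/-!
Every straight-line drawing: relabelling and shearing.
-/

namespace Vale.Agent.P040.Rect

open Finset Vale.Agent.P040

/-- Horizontal shear. -/
def shear (t : ℝ) (u : ℝ × ℝ) : ℝ × ℝ := (u.1 + t * u.2, u.2)

theorem shear_shear (t : ℝ) (u : ℝ × ℝ) : shear (-t) (shear t u) = u := by
  ext
  · simp [shear]
  · rfl

theorem shear_injective (t : ℝ) : Function.Injective (shear t) :=
  Function.LeftInverse.injective (shear_shear t)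

theorem shear_mem (t : ℝ) {a b P : ℝ × ℝ} (h : P ∈ openSegment ℝ a b) :
    shear t P ∈ openSegment ℝ (shear t a) (shear t b) := by
  obtain ⟨x, y, hx, hy, hxy, rfl⟩ := h
  refine ⟨x, y, hx, hy, hxy, ?_⟩
  ext
  · simp [shear]
    ring
  · simp [shear]

theorem shear_mem_iff (t : ℝ) (a b P : ℝ × ℝ) :
    shear t P ∈ openSegment ℝ (shear t a) (shear t b) ↔ P ∈ openSegment ℝ a b := by
  refine ⟨fun h => ?_, shear_mem t⟩
  have := shear_mem (-t) h
  rwa [shear_shear, shear_shear, shear_shear] at this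

theorem crossPairs_shear {m n : ℕ} (t : ℝ) (pA : Fin m → ℝ × ℝ) (pB : Fin n → ℝ × ℝ) :
    crossPairs (shear t ∘ pA) (shear t ∘ pB) = crossPairs pA pB := by
  have h : ∀ a c : ℝ × ℝ, meetPairs (shear t a) (shear t c) (shear t ∘ pB) = meetPairs a c pB := by
    intro a c
    unfold meetPairs
    congr 1
    ext e
    refine and_congr_right fun _ => ⟨?_, ?_⟩
    · rintro ⟨P, h1, h2⟩
      refine ⟨shear (-t) P, ?_, ?_⟩
      · have := shear_mem (-t) h1
        rwa [Function.comp_apply, shear_shear, shear_shear] at this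
      · have := shear_mem (-t) h2
        rwa [Function.comp_apply, shear_shear, shear_shear] at this
    · rintro ⟨P, h1, h2⟩
      exact ⟨shear t P, shear_mem t h1, shear_mem t h2⟩
  unfold crossPairs
  simp only [Function.comp_apply, h]

/-- Some shear makes all abscissae distinct. -/
theorem exists_shear {ι : Type} [Finite ι] (p : ι → ℝ × ℝ) (hp : Function.Injective p) :
    ∃ t : ℝ, Function.Injective fun i => (shear t (p i)).1 := by
  obtain ⟨t, ht⟩ := (Set.finite_range fun e : ι × ι =>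
    ((p e.2).1 - (p e.1).1) / ((p e.1).2 - (p e.2).2)).infinite_compl.nonempty
  refine ⟨t, fun i j h => hp ?_⟩
  simp only [shear] at h
  by_contra hne
  have hy : (p i).2 ≠ (p j).2 := fun e => hne (Prod.ext (by rw [e] at h; linarith) e)
  refine ht ⟨(i, j), ?_⟩
  simp only
  rw [div_eq_iff (sub_ne_zero.2 hy)]
  linarith

/-- The bound for drawings with distinct abscissae, sorted. -/
theorem straight_sorted (hp : PairStmt) (hr : RangeStmt) {m n : ℕ} (pA : Fin m → ℝ × ℝ)
    (pB : Fin n → ℝ × ℝ) (hA : StrictMono fun i => (pA i).1) (hB : StrictMono fun q => (pB q).1)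
    (hne : ∀ i q, (pA i).1 ≠ (pB q).1) (hsA : ∀ i k j, pA j ∉ openSegment ℝ (pA i) (pB k))
    (hsB : ∀ i k l, pB l ∉ openSegment ℝ (pA i) (pB k)) :
    m / 2 * ((m - 1) / 2) * (n / 2 * ((n - 1) / 2)) ≤ crossPairs pA pB := by
  refine (count_bound hp hr pA pB hA hB hne (fun i q => lineAt (pA i) (pB q))
    (fun i => starPos (pA i) pB) (fun i => orderedStar_lineAt hB (hne i) (hsB i)) ?_).trans ?_
  · exact fun i j q h => lineAt_ne _ _ _ (hsA i q j) h
  · refine Finset.sum_le_sum fun i _ => Finset.sum_le_sum fun j _ => ?_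
    by_cases h : i < j
    · simp only [h, if_true]
      exact curveMeets_lineAt_le (pA j)
    · simp [h]

/-- Every straight-line drawing. -/
theorem straight_bound (hp : PairStmt) (hr : RangeStmt) {m n : ℕ} (pA : Fin m → ℝ × ℝ)
    (pB : Fin n → ℝ × ℝ) (hd : IsDrawing pA pB) :
    m / 2 * ((m - 1) / 2) * (n / 2 * ((n - 1) / 2)) ≤ crossPairs pA pB := by
  obtain ⟨iA, iB, iAB, sA, sB⟩ := hd
  obtain ⟨t, ht⟩ := exists_shear (Sum.elim pA pB) (iA.sumElim iB fun i k => iAB i k)
  rw [← crossPairs_shear t]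
  set qA := shear t ∘ pA
  set qB := shear t ∘ pB
  have xA : Function.Injective fun i => (qA i).1 := fun i j h => by
    simpa using ht (a₁ := Sum.inl i) (a₂ := Sum.inl j) h
  have xB : Function.Injective fun i => (qB i).1 := fun i j h => by
    simpa using ht (a₁ := Sum.inr i) (a₂ := Sum.inr j) h
  have xAB : ∀ i k, (qA i).1 ≠ (qB k).1 := fun i k h => by
    simpa using ht (a₁ := Sum.inl i) (a₂ := Sum.inr k) h
  set σ := Tuple.sort fun i => (qA i).1
  set τ := Tuple.sort fun i => (qB i).1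
  rw [← crossPairs_perm qA qB σ τ]
  refine straight_sorted hp hr _ _ ?_ ?_ (fun i k => xAB _ _) (fun i k j h => ?_) (fun i k l h => ?_)
  · exact (Tuple.monotone_sort _).strictMono_of_injective (xA.comp σ.injective)
  · exact (Tuple.monotone_sort _).strictMono_of_injective (xB.comp τ.injective)
  · exact sA _ _ _ ((shear_mem_iff t _ _ _).1 h)
  · exact sB _ _ _ ((shear_mem_iff t _ _ _).1 h)

/-- `crossPairs` counts the pairs of independent edges whose open segments meet. -/
theorem crossPairs_eq_ncard {m n : ℕ} (pA : Fin m → ℝ × ℝ) (pB : Fin n → ℝ × ℝ) :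
    crossPairs pA pB = Set.ncard {e : (Fin m × Fin n) × (Fin m × Fin n) |
      e.1.1 < e.2.1 ∧ e.1.2 ≠ e.2.2 ∧
      ∃ P, P ∈ openSegment ℝ (pA e.1.1) (pB e.1.2) ∧ P ∈ openSegment ℝ (pA e.2.1) (pB e.2.2)} := by
  classical
  have h1 : crossPairs pA pB = ((univ : Finset (Σ _ : Fin m × Fin m, Fin n × Fin n)).filter
      fun s => s.1.1 < s.1.2 ∧ s.2.1 ≠ s.2.2 ∧ ∃ P, P ∈ openSegment ℝ (pA s.1.1) (pB s.2.1) ∧
        P ∈ openSegment ℝ (pA s.1.2) (pB s.2.2)).card := by
    rw [← Finset.univ_sigma_univ, Finset.card_filter, Finset.sum_sigma, Fintype.sum_prod_type]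
    unfold crossPairs
    refine Finset.sum_congr rfl fun i _ => Finset.sum_congr rfl fun j _ => ?_
    by_cases h : i < j
    · rw [if_pos h, ← Finset.card_filter, ← Set.ncard_coe_finset]
      unfold meetPairs
      congr 1
      ext e
      simp [h]
    · simp [h]
  rw [h1, ← Set.ncard_coe_finset]
  refine Set.ncard_congr (fun s _ => ((s.1.1, s.2.1), (s.1.2, s.2.2))) ?_ ?_ ?_
  · intro s hs
    simpa using hs
  · rintro ⟨⟨a, b⟩, c, d⟩ ⟨⟨a', b'⟩, c', d'⟩ _ _ h
    simp only [Prod.mk.injEq] at h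
    obtain ⟨⟨rfl, rfl⟩, rfl, rfl⟩ := h
    rfl
  · rintro ⟨⟨i, q⟩, j, r⟩ he
    exact ⟨⟨(i, j), (q, r)⟩, by simpa using he, rfl⟩

end Vale.Agent.P040.Rect
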